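import Vale.Agent.P157F.Up.Count
import Vale.Agent.P157.Low.CubeFacts

/-!
P157: the enriched system as a disordered system of the limit arguments.
-/

namespace Vale.Agent.P157F.Up

open MeasureTheory ProbabilityTheory Filter
open scoped RealInnerProductSpace
open Vale.Agent.P157 (Pot Wt gibbs)
open Vale.Agent.P157.Low (Sp patLaw poiLaw Mat expW)
open Vale.Agent.P166F (CIdx GIdx OArr gibW repAvg markLaw)
open Vale.Agent.P166N (Leaf Node nonempty_leaf)

variable {N n k P : ℕ} {f : ℝ → ℝ} {B : ℝ}

section Finite

variable {X : Type} [Fintype X] [Nonempty X] [MeasurableSpace X] [MeasurableSingletonClass X]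

lemma integral_uniform (F : X → ℝ) :
    ∫ x, F x ∂(PMF.uniformOfFintype X).toMeasure = (∑ x, F x) / Fintype.card X := by
  simp only [PMF.integral_eq_sum, PMF.uniformOfFintype_apply, smul_eq_mul, ENNReal.toReal_inv,
    ENNReal.toReal_natCast, inv_mul_eq_div, Finset.sum_div]

lemma integral_gibbs_uniform {e : X → ℝ} (he : Wt fun x => Real.exp (e x)) (F : X → ℝ) :
    ∫ x, F x ∂gibbs (PMF.uniformOfFintype X).toMeasure (fun x => Real.exp (e x)) =
      ∑ x, gibW e x * F x := by
  have hc : (Fintype.card X : ℝ) ≠ 0 := by exact_mod_cast Fintype.card_ne_zero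
  rw [Vale.Agent.P157.integral_gibbs he, integral_uniform, integral_uniform,
    div_div_div_cancel_right₀ hc, Finset.sum_div]
  exact Finset.sum_congr rfl fun x _ => by rw [gibW, div_mul_eq_mul_div]

lemma gibbs_uniform_singleton {e : X → ℝ} (he : Wt fun x => Real.exp (e x)) (x : X) :
    (gibbs (PMF.uniformOfFintype X).toMeasure fun x => Real.exp (e x)).real {x} = gibW e x := by
  rw [← integral_indicator_one (measurableSet_singleton x), integral_gibbs_uniform he,
    Finset.sum_eq_single x (fun y _ hne => by simp [hne]) (by simp)]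
  simp

lemma integral_pi_gibbs_uniform {e : X → ℝ} (he : Wt fun x => Real.exp (e x)) {q : ℕ}
    (Θ : (Fin q → X) → ℝ) :
    ∫ x, Θ x ∂(Measure.pi fun _ : Fin q =>
      gibbs (PMF.uniformOfFintype X).toMeasure fun x => Real.exp (e x)) = repAvg e Θ := by
  have := Vale.Agent.P157.isProbabilityMeasure_gibbs (μ := (PMF.uniformOfFintype X).toMeasure) he
  rw [integral_fintype Integrable.of_finite, repAvg]
  refine Finset.sum_congr rfl fun r _ => ?_
  rw [smul_eq_mul, Measure.real, ← Set.univ_pi_singleton r, Measure.pi_pi, ENNReal.toReal_prod]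
  congr 1
  exact Finset.prod_congr rfl fun l _ => gibbs_uniform_singleton he (r l)

omit [Nonempty X] in
lemma wt_exp_finite (e : X → ℝ) : Wt fun x => Real.exp (e x) :=
  Wt.exp (measurable_of_finite e) (β := ∑ x, |e x|) fun x =>
    Finset.single_le_sum (fun y _ => abs_nonneg (e y)) (Finset.mem_univ x)

end Finite

variable (hf : Pot f B) (C : Conf N) (hn : 1 ≤ n) (lam : ℝ) (m r : Fin (k + 1) → ℝ) (s : ℝ)
  (y : CIdx (Fin 1) P → ℝ)

/-- The enriched system with its perturbation, as a system with a reference measure. -/
noncomputable def toLow : Vale.Agent.P157.Low.Sys :=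
  letI : MeasurableSpace (C.A × Leaf n k) := ⊤
  haveI : MeasurableSingletonClass (C.A × Leaf n k) := ⟨fun _ => trivial⟩
  haveI : Nonempty (C.A × Leaf n k) := nonempty_confLeaf (k := k) C hn
  { Ω := COmega N n k × EuclideanSpace ℝ (GIdx (Fin 1) P N)
    mΩ := inferInstance
    law := (((poiLaw lam).prod (patLaw N)).prod (markLaw n k (Fin N))).prod
      (stdGaussian (EuclideanSpace ℝ (GIdx (Fin 1) P N)))
    prob := inferInstance
    X := C.A × Leaf n k
    mX := inferInstance
    ref := (PMF.uniformOfFintype (C.A × Leaf n k)).toMeasure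
    probRef := inferInstance
    E := Sp N
    normE := inferInstance
    innerE := inferInstance
    finE := inferInstance
    mE := inferInstance
    borelE := inferInstance
    v := fun x => C.pt x.1
    measV := measurable_of_finite _
    unit := fun x => C.unit x.1
    w := fun z x => Real.exp ((cSys hf C hn lam m r).expOf s y z x)
    measW := measurable_from_prod_countable_left fun x =>
      ((cSys hf C hn lam m r).measurable_expOf s y x).exp
    wt := fun z => wt_exp_finite _ }

theorem toLow_expect {q : ℕ} (Φ : Mat q → ℝ) :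
    (toLow hf C hn lam m r s y).expect Φ =
      (cSys hf C hn lam m r).expect s y fun R : OArr (Fin 1) q => Φ fun a b => R a b 0 := by
  let : MeasurableSpace (C.A × Leaf n k) := ⊤
  have : MeasurableSingletonClass (C.A × Leaf n k) := ⟨fun _ => trivial⟩
  have := nonempty_confLeaf (k := k) C hn
  rw [Vale.Agent.P166F.Sys.expect, Vale.Agent.P166F.Sys.avg_eq_repAvg]
  exact integral_congr_ae (Eventually.of_forall fun z =>
    integral_pi_gibbs_uniform (X := C.A × Leaf n k)
      (e := (cSys hf C hn lam m r).expOf s y z) (wt_exp_finite _)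
      fun x => Φ fun a b => ⟪C.pt (x a).1, C.pt (x b).1⟫)

theorem toLow_logGain :
    (toLow hf C hn lam m r s y).logGain (expW f) = cGain hf C hn lam m r s y := by
  let : MeasurableSpace (C.A × Leaf n k) := ⊤
  have : MeasurableSingletonClass (C.A × Leaf n k) := ⟨fun _ => trivial⟩
  have := nonempty_confLeaf (k := k) C hn
  refine integral_congr_ae (Eventually.of_forall fun z =>
    integral_congr_ae (Eventually.of_forall fun g => congrArg Real.log ?_))
  exact integral_gibbs_uniform (X := C.A × Leaf n k) (e := (cSys hf C hn lam m r).expOf s y z)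
    (wt_exp_finite _) fun x => expW f ⟪g, C.pt x.1⟫

end Vale.Agent.P157F.Up
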