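import Vale.Agent.P157F.Pat.Refine
import Vale.Agent.P157.Low.Cavity
import Vale.Agent.P166F.Low.Discr
import Vale.Agent.P166F.Up.StepLaw

/-!
P157: along systems with the Ghirlanda–Guerra identities whose overlap tails dominate those of a
path, one pattern gains at most the value of the path.
-/

namespace Vale.Agent.P157F.Up

open MeasureTheory Filter Vale.Agent.P157 Vale.Agent.P157.Low
open scoped Topology
open Vale.Agent.P166F (Levels Path stepLaw)

variable {k : ℕ} {f : ℝ → ℝ} {B : ℝ}

/-- A limit array dominating the tails of a path gains at most the value of the path. -/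
theorem logArr_le_of_tails (hs : Smf f) (hf : Pot f B) {m p : Fin (k + 1) → ℝ} (hm : Levels m)
    (hp : Path p) (A : Arr)
    (h : ∀ c ∈ Set.Icc (0 : ℝ) 1, ∫ x, max c x ∂stepLaw m p ≤ ∫ R, max c (R 0 1) ∂A.law 2) :
    logArr A (Real.exp B) (expW f) ≤ patVal f m p := by
  obtain ⟨E, -, hE⟩ := hs.exists_bound
  have hW := weight_expW hf hs
  choose D hD using fun K : ℕ => Vale.Agent.P166F.Low.exists_discr_levels A (Nat.le_add_left 2 K)
  have hlim := tendsto_logVal D hW
  have herr : Tendsto (fun K : ℕ => patVal f m p + E ^ 2 * (2 / ((K + 2 : ℕ) : ℝ))) atTop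
      (𝓝 (patVal f m p)) := by
    have h0 : Tendsto (fun K : ℕ => (2 : ℝ) / ((K + 2 : ℕ) : ℝ)) atTop (𝓝 0) :=
      (tendsto_const_div_atTop_nhds_zero_nat (2 : ℝ)).comp (tendsto_add_atTop_nat 2)
    simpa using (h0.const_mul (E ^ 2)).const_add (patVal f m p)
  refine le_of_tendsto_of_tendsto' hlim herr fun K => ?_
  have hval : (D K).C.logVal (incr (D K).q) (Real.exp B) (Low.heat (expW f) (D K).rest) =
      patVal f (D K).C.cdf (D K).q := by
    rw [Casc.logVal_eq _ (D K).incr_nonneg (hW.heat (D K).rest)]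
    rfl
  rw [hval]
  have hK : (0 : ℝ) < ((K + 2 : ℕ) : ℝ) := by positivity
  have hq : Path (D K).q := ⟨(D K).monoq, fun l => ((D K).rangeq l).1, fun l =>
    ((D K).rangeq l).2.trans_lt (sub_lt_self 1 (one_div_pos.2 hK))⟩
  refine patVal_le_of_tails hs (fun x => (hE x).1) hm hp (hD K) hq (by positivity) fun c hc => ?_
  have e1 : ∫ x, max c x ∂stepLaw (D K).C.cdf (D K).q =
      ∫ R, max c ((D K).q ((D K).τ (R 0 1))) ∂A.law 2 := by
    rw [Vale.Agent.P166F.integral_stepLaw (hD K)]
    have h1 := (D K).C.sum_pair fun j => max c ((D K).q j)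
    have h2 := (D K).law 2 fun B => max c ((D K).q (B 0 1))
    have h3 : ∀ j, Vale.Agent.P166F.lmass (D K).C.cdf j = mNext (D K).C.cdf j - (D K).C.cdf j :=
      fun j => by
        rw [Vale.Agent.P166F.lmass, mNext]
        by_cases hj : (j : ℕ) < (D K).r
        · rw [dif_pos hj, dif_pos (show (j : ℕ) + 1 ≤ (D K).r by omega)]
        · rw [dif_neg hj, dif_neg (show ¬((j : ℕ) + 1 ≤ (D K).r) by omega)]
    simp only [h3]
    rw [← h1, ← h2]
    exact integral_congr_ae (Eventually.of_forall fun R => by simp [lift])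
  rw [e1]
  have := A.prob 2
  have hi : Integrable (fun R : Mat 2 => max c (R 0 1)) (A.law 2) :=
    Integrable.of_bound (by fun_prop : Continuous fun R : Mat 2 => max c (R 0 1)).aestronglyMeasurable 1
      ((A.bdd 2).mono fun R hR => by
        rw [Real.norm_eq_abs, abs_le]
        exact ⟨le_max_of_le_left (by linarith [hc.1]), max_le hc.2 (abs_le.1 (hR 0 1)).2⟩)
  have hi' : Integrable (fun R : Mat 2 => max c ((D K).q ((D K).τ (R 0 1)))) (A.law 2) :=
    Integrable.of_bound (measurable_const.max ((measurable_of_countable _).comp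
      ((D K).measτ.comp (measurable_entry 0 1)))).aestronglyMeasurable 1
      (Eventually.of_forall fun R => by
        rw [Real.norm_eq_abs, abs_le]
        exact ⟨le_max_of_le_left (by linarith [hc.1]), max_le hc.2 (hq.ltOne _).le⟩)
  have hmono := integral_mono_ae (hi.sub (integrable_const (2 / ((K + 2 : ℕ) : ℝ)))) hi'
    ((D K).close.mono fun R hR => by
      simp only [Pi.sub_apply]
      rw [sub_le_iff_le_add]
      have h4 := (abs_le.1 hR).1
      exact max_le (le_add_of_le_of_nonneg (le_max_left _ _) (by positivity))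
        (by linarith [le_max_right c ((D K).q ((D K).τ (R 0 1)))]))
  simp only [Pi.sub_apply] at hmono
  rw [integral_sub hi (integrable_const _), integral_const, probReal_univ, one_smul] at hmono
  linarith [h c hc]

theorem logGain_le_of_good (hs : Smf f) (hf : Pot f B) {m p : Fin (k + 1) → ℝ} (hm : Levels m)
    (hp : Path p) (S : ℕ → Sys)
    (hgg : ∀ (q n : ℕ) (l : Fin n) (Φ : Mat n → ℝ), Continuous Φ → (∃ C, ∀ R, |Φ R| ≤ C) →
      Tendsto (fun i =>
        (n : ℝ) * (S i).expect (fun R : Mat (n + 1) =>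
            Φ (sub R Fin.castSucc) * R l.castSucc (Fin.last n) ^ (q + 1)) -
          ((S i).expect Φ * (S i).expect (fun R : Mat 2 => R 0 1 ^ (q + 1)) +
            ∑ l' ∈ Finset.univ.erase l, (S i).expect (fun R : Mat n => Φ R * R l l' ^ (q + 1))))
        atTop (𝓝 0))
    (htails : ∀ c ∈ Set.Icc (0 : ℝ) 1, ∀ ε > 0, ∀ᶠ i in atTop,
      (∫ x, max c x ∂stepLaw m p) - ε ≤ (S i).expect fun R : Mat 2 => max c (R 0 1))
    {η : ℝ} (hη : 0 < η) :
    ∀ᶠ i in atTop, (S i).logGain (expW f) ≤ patVal f m p + η := by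
  by_contra hcon
  rw [not_eventually] at hcon
  obtain ⟨ψ, hψ, hbad⟩ := extraction_of_frequently_atTop hcon
  obtain ⟨φ, hφ, A, hA⟩ := exists_conv (fun i => S (ψ i))
    (fun q n l Φ hΦ hb => (hgg q n l Φ hΦ hb).comp hψ.tendsto_atTop)
  have hsub : Tendsto (fun i => ψ (φ i)) atTop atTop := hψ.tendsto_atTop.comp hφ.tendsto_atTop
  have htail : ∀ c ∈ Set.Icc (0 : ℝ) 1, ∫ x, max c x ∂stepLaw m p ≤ ∫ R, max c (R 0 1) ∂A.law 2 :=
    fun c hc => by
    set Φ : Mat 2 → ℝ := fun R => max c (max (-1) (min 1 (R 0 1))) with hΦ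
    have hb : ∀ R, |Φ R| ≤ 1 := fun R => abs_le.2
      ⟨le_max_of_le_left (by linarith [hc.1]), max_le hc.2 (max_le (by norm_num) (min_le_left _ _))⟩
    have e1 : ∀ i, (S i).expect Φ = (S i).expect fun R : Mat 2 => max c (R 0 1) := fun i => by
      refine congrArg (fun Θ => (S i).avgRep 2 Θ) (funext fun _ => funext fun x => ?_)
      have h2 := abs_le.1 ((S i).abs_gram_le x 0 1)
      simp only [hΦ]
      rw [min_eq_right h2.2, max_eq_right h2.1]
    have e2 : ∫ R, Φ R ∂A.law 2 = ∫ R, max c (R 0 1) ∂A.law 2 :=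
      integral_congr_ae ((A.bdd 2).mono fun R hR => by
        have h2 := abs_le.1 (hR 0 1)
        simp only [hΦ]
        rw [min_eq_right h2.2, max_eq_right h2.1])
    have h := hA 2 Φ (by fun_prop) ⟨1, hb⟩
    simp only [e1, e2] at h
    refine le_of_forall_pos_le_add fun ε hε => ?_
    have := ge_of_tendsto h (hsub.eventually (htails c hc ε hε))
    linarith
  have hle := logArr_le_of_tails hs hf hm hp A htail
  have hg := Conv.logGain hA (weight_expW hf hs)
  have := ge_of_tendsto hg (Eventually.of_forall fun i => (le_of_not_ge (hbad (φ i))))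
  linarith

end Vale.Agent.P157F.Up
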