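import Vale.Agent.P157F.Up.Max
import Vale.Agent.P157F.Up.Gain
import Vale.Agent.P157F.Up.Adapter

/-!
P157: the upper bound for finitely many points: along the mean number of patterns the maximum of
the enriched pressure less its entropy rises no faster than the value of the path.
-/

namespace Vale.Agent.P157F.Up

open MeasureTheory Filter
open scoped Topology
open Vale.Agent.P157 (Pot)
open Vale.Agent.P157.Low (Smf Mat expW)
open Vale.Agent.P166F (Levels Path fieldPaths pairing seqOf nestRoot rgrid CIdx OArr degr scl pen rad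
  stp gainRem devB pinErr ybox yctr cnum bs tendsto_pin tendsto_gain tendsto_cost tendsto_bs
  tendsto_degr Mon)
open Vale.Agent.P166N (meet)

variable {k : ℕ} {f : ℝ → ℝ} {B : ℝ}

/-- Maximisers at a time inside the range give systems with the identities and the tails of the
path. -/
theorem good_of_max (hf : Pot f B) {α : ℝ} {m p : Fin (k + 1) → ℝ} (hm : Levels m) (hp : Path p)
    (C : ∀ N, Conf (N + 1)) {X : (Fin (k + 1) → ℝ) → ℝ} {Cst L : ℝ} (hC0 : 0 ≤ Cst) (hL0 : 0 ≤ L)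
    (hL : ∀ r ∈ fieldPaths k, L ≤ r (Fin.last k) →
      X r - r (Fin.last k) / 2 + pairing m p r ≤ -(2 * α * B + 3))
    (nn : ℕ → ℕ) (T : ℕ → Finset ℝ)
    (hn : ∀ᶠ N in atTop, CSized hf (C N) m X Cst L (T N) (nn N))
    (lam : ℕ → ℝ) (hlam : ∀ᶠ N : ℕ in atTop, lam N ∈ T N ∧ 0 ≤ lam N ∧ lam N ≤ α * ((N : ℝ) + 1))
    (r : ℕ → Fin (k + 1) → ℝ) (y : ∀ N, CIdx (Fin 1) (degr (N + 1)) → ℝ)
    (hr : ∀ N, r N ∈ rgrid (N + 1) k L) (hy : ∀ N, y N ∈ ybox 1 (N + 1))
    (hmax : ∀ N, ∀ r' ∈ rgrid (N + 1) k L, ∀ y' ∈ ybox 1 (N + 1),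
      cObj hf (C N) (nn N) m p (lam N) r' y' ≤ cObj hf (C N) (nn N) m p (lam N) (r N) (y N))
    (hs : Smf f) {η : ℝ} (hη : 0 < η) :
    ∀ᶠ N in atTop, cGain hf (C N) (n := nn N + 1) (by omega) (lam N) m (r N) (scl (N + 1)) (y N) ≤
      patVal f m p + η := by
  have hC' : 0 ≤ Cst * (1 + (L + 2)) := mul_nonneg hC0 (by linarith)
  have hsh : Tendsto (fun N : ℕ => N + 1) atTop atTop := tendsto_add_atTop_nat 1
  have hpin : ∀ᶠ N in atTop, Vale.Agent.P166F.Pinned
      (cSys hf (C N) (n := nn N + 1) (by omega) (lam N) m (r N)) (scl (N + 1)) (y N) (pen 1 (N + 1))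
      (devB 1 (Cst * (1 + (L + 2))) (N + 1)) (rad (N + 1)) := by
    filter_upwards [hn, hlam, hsh.eventually (tendsto_bs.eventually_ge_atTop 4)] with N hN hl h4
    refine cmax_pinned (Nat.le_add_left 1 N) (hr N) (hy N) (hmax N) ?_ fun y' hy' =>
      ((hN (r N) (hr N)).2 (lam N) hl.1 y' hy').1
    rw [rad, scl, le_div_iff₀ (by norm_num : (0 : ℝ) < 4), pow_succ (bs (N + 1)) 2]
    exact mul_le_mul_of_nonneg_left h4 (sq_nonneg _)
  set S : ℕ → Vale.Agent.P157.Low.Sys := fun N =>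
    toLow hf (C N) (n := nn N + 1) (by omega) (lam N) m (r N) (scl (N + 1)) (y N) with hS
  have hgood := logGain_le_of_good hs hf hm hp S (fun q ρ l Φ hΦ hb => ?_) (fun c hc ε hε => ?_) hη
  · simpa only [hS, toLow_logGain] using hgood
  · obtain ⟨Bd, hBd⟩ := hb
    have hlim := ((tendsto_pin 1 hC').comp hsh).const_mul (Bd * 3)
    rw [mul_zero] at hlim
    refine squeeze_zero_norm' ?_ hlim
    filter_upwards [hpin, hsh.eventually (tendsto_degr.eventually_ge_atTop (q + 1))] with N hN hd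
    have hcl : Continuous fun R : OArr (Fin 1) ρ => Φ fun a b => R a b 0 := hΦ.comp (by fun_prop)
    set e : Mon (Fin 1) (degr (N + 1)) := ⟨fun _ => ⟨q + 1, by omega⟩, by simp⟩
    have h := Vale.Agent.P166F.gg_of_pinned _ hN l hcl (fun R => hBd _) e
    have hm1 : ∀ x : Fin 1 → ℝ,
        Vale.Agent.P166F.monom (fun j => ((e.1 j : Fin (degr (N + 1) + 1)) : ℕ)) x = x 0 ^ (q + 1) :=
      fun x => by simp [Vale.Agent.P166F.monom, e]
    simp only [hm1] at h
    simp only [hS, toLow_expect, Real.norm_eq_abs]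
    refine h.trans ?_
    have hB0 : 0 ≤ Bd := (abs_nonneg _).trans (hBd fun _ _ => 0)
    have hp0 : 0 ≤ pinErr (scl (N + 1)) (pen 1 (N + 1)) (devB 1 (Cst * (1 + (L + 2))) (N + 1))
        (rad (N + 1)) := by
      have := Vale.Agent.P166F.cnum_nonneg 1 (N + 1)
      have := Vale.Agent.P166F.scl_nonneg (N + 1)
      have : 0 ≤ rad (N + 1) := sq_nonneg _
      unfold pinErr pen devB
      positivity
    simp only [Function.comp_apply]
    calc Bd * (1 + 2 * (degr (N + 1) : ℝ) * Fintype.card (Fin 1)) * _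
        ≤ Bd * (3 * ((degr (N + 1) : ℝ) + 1)) * pinErr (scl (N + 1)) (pen 1 (N + 1))
          (devB 1 (Cst * (1 + (L + 2))) (N + 1)) (rad (N + 1)) := by
          refine mul_le_mul_of_nonneg_right (mul_le_mul_of_nonneg_left ?_ hB0) hp0
          rw [Fintype.card_fin]
          push_cast
          linarith [(Nat.cast_nonneg _ : (0 : ℝ) ≤ (degr (N + 1) : ℝ))]
      _ = _ := by ring
  · have h0 := (tendsto_gain.add tendsto_one_div_add_atTop_nhds_zero_nat).comp hsh
    rw [add_zero] at h0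
    have hcost := (((tendsto_cost 1).const_mul 2).add
      ((tendsto_const_div_atTop_nhds_zero_nat (2 : ℝ)))).comp hsh
    rw [mul_zero, add_zero] at hcost
    filter_upwards [hn, hlam, h0.eventually (eventually_le_nhds hε),
      hcost.eventually (eventually_le_nhds (zero_lt_one (α := ℝ)))] with N hN hl he hcs
    have hsmall : (2 * cnum 1 (N + 1) * scl (N + 1) ^ 2 + 2) / ((N + 1 : ℕ) : ℝ) ≤ 1 := by
      refine le_trans (le_of_eq ?_) hcs
      simp only [Function.comp_apply]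
      ring
    have hsz := hN (r N) (hr N)
    have hle : lam N ≤ α * ((N + 1 : ℕ) : ℝ) := by push_cast; exact hl.2.2
    have hlast := cmax_below (Nat.le_add_left 1 N) hl.2.1 hle (hr N) (hy N) (hmax N) hsz.1 hsmall
      (fun r' h1 h2 h3 => hL r' ⟨h1, h2⟩ h3) hL0
    have hg0 : 0 ≤ 2 * gainRem (stp (N + 1) * ((N + 1 : ℕ) : ℝ)) /
        (stp (N + 1) * ((N + 1 : ℕ) : ℝ)) := by
      have := Vale.Agent.P166F.gmom_nonneg 3
      have := Vale.Agent.P166F.gmom_nonneg 4
      have := Vale.Agent.P166F.gmom_nonneg 6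
      have := Vale.Agent.P166F.stp_pos (N + 1)
      unfold gainRem
      positivity
    have h := ctails_bound (hf := hf) (C := C N) (n := nn N) (m := m) (p := p) (lam := lam N)
      (r := r N) (y := y N) hm hp (s := scl (N + 1))
      (show (0 : ℝ) ≤ 1 / (((N + 1 : ℕ) : ℝ) + 1) by positivity)
      (fun j => cmax_overlap (Nat.le_add_left 1 N) (hr N) (hy N) (hmax N) hL0 hlast.le j)
      (fun j => ((hsz.2 (lam N) hl.1 (y N) (Vale.Agent.P166F.ybox_subset 1 (N + 1) (hy N))).2 j))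
      hg0 hc
    simp only [hS, toLow_expect]
    simp only [Function.comp_apply] at he
    linarith

theorem upper_conf (hs : Smf f) (hf : Pot f B) {α : ℝ} (hα : 0 < α) {m p : Fin (k + 1) → ℝ}
    (hm : Levels m) (hp : Path p) (C : ∀ N, Conf (N + 1)) {X : (Fin (k + 1) → ℝ) → ℝ} {E L : ℝ}
    (hL0 : 0 ≤ L)
    (hfree : ∀ᶠ N : ℕ in atTop, ∀ r ∈ rgrid (N + 1) k L,
      nestRoot k (seqOf m) (fun j _ => seqOf r j) (freeG (C N)) ≤ ((N : ℝ) + 1) * X r + 1)
    (hE : ∀ r ∈ fieldPaths k, X r - r (Fin.last k) / 2 + pairing m p r ≤ E)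
    (hL : ∀ r ∈ fieldPaths k, L ≤ r (Fin.last k) →
      X r - r (Fin.last k) / 2 + pairing m p r ≤ -(2 * α * B + 3))
    {η : ℝ} (hη : 0 < η) :
    ∀ᶠ N : ℕ in atTop,
      confPressure f (C N) ⌊α * ((N : ℝ) + 1)⌋₊ ≤ α * patVal f m p + E + η := by
  have hB := hf.nonneg
  obtain ⟨C₀, hC₀⟩ := cSys_dev hf α hm
  set Cst := max C₀ 0 with hCst
  have hdev : ∀ (N : ℕ) (lam : ℝ) (r : Fin (k + 1) → ℝ) (s S L : ℝ)
      (y : CIdx (Fin 1) (degr (N + 1)) → ℝ),
      0 ≤ lam → lam ≤ α * ((N + 1 : ℕ) : ℝ) → Monotone r → (∀ l, 0 ≤ r l ∧ r l ≤ L) → 1 ≤ s →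
      s ^ 2 ≤ ((N + 1 : ℕ) : ℝ) → 0 ≤ S → y ∈ Vale.Agent.P166F.CBox S →
      ∀ᶠ n in atTop, (cSys hf (C N) (n := n + 1) (by omega) lam m r).dev (degr (N + 1)) s y ≤
        Cst * (1 + L) * ((1 + (S / Real.sqrt ((N + 1 : ℕ) : ℝ)) ^ 2) *
          Real.sqrt ((N + 1 : ℕ) : ℝ) + S + s) *
            (Fintype.card (CIdx (Fin 1) (degr (N + 1))) * (degr (N + 1) + 1) : ℝ) ^ 2 := by
    intro N lam r s S L y h1 h2 h3 h4 h5 h6 h7 h8
    refine (hC₀ (N + 1) (C N) lam r (degr (N + 1)) s S L y (Nat.le_add_left 1 N) h1 h2 h3 h4 h5 h6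
      h7 h8).mono fun n hn => hn.trans ?_
    have hL' : 0 ≤ L := (h4 0).1.trans (h4 0).2
    have : 0 ≤ s := zero_le_one.trans h5
    gcongr
    exact le_max_left _ _
  -- the grid of times
  set Ms : ℕ → ℕ := fun N => ⌈α * ((N : ℝ) + 1) * ((N : ℝ) + 1)⌉₊ + 1 with hMs
  set h : ℕ → ℝ := fun N => α * ((N : ℝ) + 1) / Ms N with hh
  set T : ℕ → Finset ℝ := fun N => (Finset.range (Ms N + 1)).image fun i : ℕ => (i : ℝ) * h N with hT
  have hM0 : ∀ N, (0 : ℝ) < Ms N := fun N => by simp only [hMs]; push_cast; positivity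
  have hh0 : ∀ N, 0 < h N := fun N => div_pos (by positivity) (hM0 N)
  have hend : ∀ N, (Ms N : ℝ) * h N = α * ((N : ℝ) + 1) := fun N => by
    rw [hh, mul_div_cancel₀ _ (hM0 N).ne']
  have hhN : ∀ N : ℕ, h N ≤ 1 / ((N : ℝ) + 1) := fun N => by
    simp only [hh]
    rw [div_le_div_iff₀ (hM0 N) (by positivity), one_mul]
    simp only [hMs]
    push_cast
    linarith [Nat.le_ceil (α * ((N : ℝ) + 1) * ((N : ℝ) + 1))]
  have hTb : ∀ N, ∀ t ∈ T N, 0 ≤ t ∧ t ≤ α * ((N + 1 : ℕ) : ℝ) := fun N t ht => by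
    obtain ⟨i, hi, rfl⟩ := Finset.mem_image.1 ht
    refine ⟨mul_nonneg (Nat.cast_nonneg i) (hh0 N).le, ?_⟩
    push_cast
    rw [← hend N]
    exact mul_le_mul_of_nonneg_right
      (Nat.cast_le.2 (Nat.lt_succ_iff.1 (Finset.mem_range.1 hi))) (hh0 N).le
  have hsz : ∀ N : ℕ, ∃ n : ℕ, (∀ r ∈ rgrid (N + 1) k L,
      nestRoot k (seqOf m) (fun j _ => seqOf r j) (freeG (C N)) ≤ ((N : ℝ) + 1) * X r + 1) →
      CSized hf (C N) m X Cst L (T N) n := fun N => by
    by_cases hN : ∀ r ∈ rgrid (N + 1) k L,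
      nestRoot k (seqOf m) (fun j _ => seqOf r j) (freeG (C N)) ≤ ((N : ℝ) + 1) * X r + 1
    · obtain ⟨n, hn⟩ := exists_csize (C := C N) hf hm (Nat.le_add_left 1 N) (hdev N) (X := X) (T N)
        (hTb N) hL0 fun r hr => by push_cast; exact hN r hr
      exact ⟨n, fun _ => hn⟩
    · exact ⟨0, fun h => absurd h hN⟩
  choose nn hnn using hsz
  have hsized : ∀ᶠ N in atTop, CSized hf (C N) m X Cst L (T N) (nn N) := hfree.mono fun N hN => hnn N hN
  -- maximisers at every time, and the worst of the times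
  choose R hR Y hY hmax using fun (N i : ℕ) =>
    exists_cObj_max hf (C N) (nn N) m p L ((i : ℝ) * h N)
  set G : ℕ → ℕ → ℝ := fun N i => cGain hf (C N) (n := nn N + 1) (by omega) ((i : ℝ) * h N) m
    (R N i) (scl (N + 1)) (Y N i) with hG
  have hworst : ∀ N, ∃ i ≤ Ms N, ∀ i' ≤ Ms N, G N i' ≤ G N i := fun N => by
    obtain ⟨i, hi, hi'⟩ := Finset.exists_max_image (Finset.range (Ms N + 1)) (G N)
      ⟨0, Finset.mem_range.2 (Nat.succ_pos _)⟩
    exact ⟨i, Nat.lt_succ_iff.1 (Finset.mem_range.1 hi), fun i' hi'' =>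
      hi' i' (Finset.mem_range.2 (Nat.lt_succ_iff.2 hi''))⟩
  choose I hI hImax using hworst
  have hgain := good_of_max hf hm hp C (X := X) (le_max_right _ _) hL0 hL nn T hsized
    (fun N => (I N : ℝ) * h N) (Eventually.of_forall fun N => by
      have hmem : (I N : ℝ) * h N ∈ T N :=
        Finset.mem_image_of_mem _ (Finset.mem_range.2 (Nat.lt_succ_iff.2 (hI N)))
      exact ⟨hmem, (hTb N _ hmem).1, (hTb N _ hmem).2.trans_eq (by push_cast; ring)⟩)
    (fun N => R N (I N)) (fun N => Y N (I N)) (fun N => hR N (I N)) (fun N => hY N (I N))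
    (fun N => hmax N (I N)) hs (show 0 < η / (4 * α) by positivity)
  -- the errors
  have hsh : Tendsto (fun N : ℕ => N + 1) atTop atTop := tendsto_add_atTop_nat 1
  have hstep0 : Tendsto (fun N : ℕ => 4 * B * α * (1 / ((N : ℝ) + 1))) atTop (𝓝 0) := by
    simpa using tendsto_one_div_add_atTop_nhds_zero_nat.const_mul (4 * B * α)
  have hcost := (((tendsto_cost 1).const_mul 2).add
    ((tendsto_const_div_atTop_nhds_zero_nat (2 : ℝ)))).comp hsh
  rw [mul_zero, add_zero] at hcost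
  have hdep : Tendsto (fun N : ℕ => B * (Real.sqrt α * Real.sqrt ((N + 1 : ℕ) : ℝ) + 1) /
      ((N + 1 : ℕ) : ℝ)) atTop (𝓝 0) := by
    have h1 : Tendsto (fun N : ℕ => (Real.sqrt N)⁻¹) atTop (𝓝 0) :=
      (Real.tendsto_sqrt_atTop.comp tendsto_natCast_atTop_atTop).inv_tendsto_atTop
    have h2 := ((h1.const_mul (B * Real.sqrt α)).add
      (tendsto_const_div_atTop_nhds_zero_nat B)).comp hsh
    simp only [mul_zero, add_zero] at h2
    refine h2.congr fun N => ?_
    have hN : (0 : ℝ) < ((N + 1 : ℕ) : ℝ) := by positivity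
    simp only [Function.comp_apply]
    field_simp
    linear_combination (-(B * Real.sqrt α)) * Real.mul_self_sqrt hN.le
  filter_upwards [hsized, hgain, hstep0.eventually (eventually_le_nhds (show 0 < η / 4 by linarith)),
    hcost.eventually (eventually_le_nhds (show 0 < η / 4 by linarith)),
    hdep.eventually (eventually_le_nhds (show 0 < η / 4 by linarith))] with N hN hG' he1 he2 he3
  set Nr : ℝ := ((N + 1 : ℕ) : ℝ) with hNr
  have hNr' : Nr = (N : ℝ) + 1 := by simp [hNr]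
  have hN0 : 0 < Nr := by rw [hNr']; positivity
  set V : ℕ → ℝ := fun i => cObj hf (C N) (nn N) m p ((i : ℝ) * h N) (R N i) (Y N i) with hV
  -- the start
  have hfirst : V 0 ≤ E + η / 4 := by
    obtain ⟨hmono, hb'⟩ := Vale.Agent.P166F.rgrid_bounds hL0 (hR N 0)
    have h0 := (hN (R N 0) (hR N 0)).1
    have h1 := (cpress_box hf (C N) (nn N) m 0 (R N 0)
      (Vale.Agent.P166F.ybox_subset 1 (N + 1) (hY N 0))).2
    have h2 := hE (R N 0) ⟨hmono, fun l => (hb' l).1⟩
    have h3 : 0 ≤ pen 1 (N + 1) * (∑ i, (Y N 0 i - 3 / 2 * scl (N + 1)) ^ 2) / Nr := by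
      have := Vale.Agent.P166F.cnum_nonneg 1 (N + 1)
      unfold pen
      positivity
    have h4 : (cSys hf (C N) (n := nn N + 1) (by omega) 0 m (R N 0)).press (degr (N + 1))
        (scl (N + 1)) (Y N 0) / Nr ≤ X (R N 0) +
          (2 * (cnum 1 (N + 1) * scl (N + 1) ^ 2 / Nr) + 2 / Nr) := by
      rw [div_le_iff₀ hN0, add_mul, add_mul, mul_assoc 2, div_mul_cancel₀ _ hN0.ne',
        div_mul_cancel₀ _ hN0.ne']
      linarith
    simp only [Function.comp_apply] at he2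
    simp only [hV, cObj, Nat.cast_zero, zero_mul]
    linarith
  -- the end
  have hlast : confPressure f (C N) ⌊α * ((N : ℝ) + 1)⌋₊ ≤ V (Ms N) + η / 4 := by
    have hl : 0 ≤ α * ((N : ℝ) + 1) := by positivity
    have h1 := (cObj_origin hf (C N) (nn N) m p (Nat.le_add_left 1 N) hl).1
    have h2 := hmax N (Ms N) 0 (Vale.Agent.P166F.zero_mem_rgrid L) _
      (Vale.Agent.P166F.yctr_mem 1 (N + 1))
    rw [hend N] at h2
    have h3 := (abs_le.1 (press_origin hf (C N) (n := nn N + 1) (P := degr (N + 1)) (by omega) m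
      (scl (N + 1)) (Nat.le_add_left 1 N) hl ⌊α * ((N : ℝ) + 1)⌋₊)).1
    have h4 : |α * ((N : ℝ) + 1) - (⌊α * ((N : ℝ) + 1)⌋₊ : ℝ)| ≤ 1 := by
      have := Nat.floor_le hl
      have := Nat.lt_floor_add_one (α * ((N : ℝ) + 1))
      rw [abs_le]
      constructor <;> linarith
    have h5 : Real.sqrt (α * ((N : ℝ) + 1)) = Real.sqrt α * Real.sqrt Nr := by
      rw [hNr', Real.sqrt_mul hα.le]
    have h6 : Nr * confPressure f (C N) ⌊α * ((N : ℝ) + 1)⌋₊ ≤
        (cSys hf (C N) (n := nn N + 1) (by omega) (α * ((N : ℝ) + 1)) m 0).press (degr (N + 1))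
          (scl (N + 1)) 0 + B * (Real.sqrt α * Real.sqrt Nr + 1) := by
      have := mul_le_mul_of_nonneg_left (add_le_add (le_of_eq h5) h4) hB
      linarith
    have h7 := div_le_div_of_nonneg_right h6 hN0.le
    rw [mul_div_cancel_left₀ _ hN0.ne', add_div] at h7
    simp only [hV, hend N]
    linarith
  -- the steps
  have hstep : ∀ i ∈ Finset.range (Ms N), V (i + 1) - V i ≤
      h N / Nr * (patVal f m p + η / (4 * α)) + 4 * B * h N ^ 2 / Nr := fun i hi => by
    have hi' : i + 1 ≤ Ms N := Finset.mem_range.1 hi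
    have h1 := hmax N i (R N (i + 1)) (hR N (i + 1)) (Y N (i + 1)) (hY N (i + 1))
    have h2 := press_time_step hf (C N) (n := nn N + 1) (by omega) m (R N (i + 1)) (scl (N + 1))
      (Y N (i + 1)) (lam := (i : ℝ) * h N) (mul_nonneg (Nat.cast_nonneg i) (hh0 N).le) (hh0 N).le
    have e : (i : ℝ) * h N + h N = ((i + 1 : ℕ) : ℝ) * h N := by push_cast; ring
    rw [e] at h2
    have h3 := mul_le_mul_of_nonneg_left ((hImax N (i + 1) hi').trans hG') (hh0 N).le
    have h4 := div_le_div_of_nonneg_right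
      (h2.trans (add_le_add h3 le_rfl)) hN0.le
    rw [sub_div, add_div, mul_div_right_comm] at h4
    simp only [hV, cObj] at h1 ⊢
    linarith
  have hsum := Finset.sum_le_sum hstep
  rw [Finset.sum_range_sub V, Finset.sum_const, Finset.card_range, nsmul_eq_mul, mul_add] at hsum
  have e1 : (Ms N : ℝ) * (h N / Nr * (patVal f m p + η / (4 * α))) = α * patVal f m p + η / 4 := by
    rw [← mul_assoc, mul_div_assoc', hend N, ← hNr', mul_div_cancel_right₀ _ hN0.ne']
    field_simp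
  have e2 : (Ms N : ℝ) * (4 * B * h N ^ 2 / Nr) ≤ 4 * B * α * (1 / ((N : ℝ) + 1)) := by
    have : (Ms N : ℝ) * (4 * B * h N ^ 2 / Nr) = 4 * B * α * h N := by
      rw [show (Ms N : ℝ) * (4 * B * h N ^ 2 / Nr) = 4 * B * h N * ((Ms N : ℝ) * h N) / Nr by ring,
        hend N, ← hNr']
      field_simp
    rw [this]
    exact mul_le_mul_of_nonneg_left (hhN N) (by positivity)
  linarith

end Vale.Agent.P157F.Up
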