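import Vale.Agent.P157F.Up.Model
import Vale.Agent.P157.Low.CubePairs
import Vale.Agent.P166F.Up.Step
import Vale.Agent.P166F.Up.Perturb
import Vale.Agent.P166F.Up.Dev.Mad

/-!
P157: the enriched system along the mean number of patterns: the gain of one pattern.
-/

namespace Vale.Agent.P157F.Up

open MeasureTheory ProbabilityTheory Filter
open scoped RealInnerProductSpace
open Vale.Agent.P157 (Pot)
open Vale.Agent.P157.Low (Sp patLaw poiLaw poisson_add poisson_palm integrable_poisson_of_le
  map_update_pattern map_first_patterns poiLaw_id poiLaw_variance integrable_poiLaw_pow abs_le_amgm)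
open Vale.Agent.P166F (Sys CIdx GIdx FSp markLaw gibW gibW_pos sum_gibW lsum lsum_add ae_node_pos'
  wgt wgt_pos seqOf leafPt)
open Vale.Agent.P166N (Leaf Node nonempty_leaf unif)

variable {N n k P : ℕ} {f : ℝ → ℝ} {B : ℝ}

/-- The mean log-average of one new pattern. -/
noncomputable def cGain (hf : Pot f B) (C : Conf N) (hn : 1 ≤ n) (lam : ℝ) (m r : Fin (k + 1) → ℝ)
    (s : ℝ) (y : CIdx (Fin 1) P → ℝ) : ℝ :=
  ∫ z, ∫ g, Real.log (∑ x : C.A × Leaf n k, gibW ((cSys hf C hn lam m r).expOf s y z) x *
      Real.exp (f ⟪g, C.pt x.1⟫)) ∂stdGaussian (Sp N)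
    ∂(cSys hf C hn lam m r).full P

/-- Everything random apart from the patterns. -/
abbrev Aux (N n k P : ℕ) :=
  ((Node n k → ℝ) × (Option (Node n k) → EuclideanSpace ℝ (Fin N))) ×
    EuclideanSpace ℝ (GIdx (Fin 1) P N)

/-- Its law. -/
noncomputable def auxLaw (N n k P : ℕ) : Measure (Aux N n k P) :=
  (markLaw n k (Fin N)).prod (stdGaussian (EuclideanSpace ℝ (GIdx (Fin 1) P N)))

instance (N n k P : ℕ) : IsProbabilityMeasure (auxLaw N n k P) := by unfold auxLaw; infer_instance

/-- The exponents at given patterns and rest. -/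
noncomputable def cExp (f : ℝ → ℝ) (C : Conf N) (m r : Fin (k + 1) → ℝ) (s : ℝ)
    (y : CIdx (Fin 1) P → ℝ) (ω : ℕ × (ℕ → Sp N)) (u : Aux N n k P) (x : C.A × Leaf n k) : ℝ :=
  confExp f C s y (ω, u.2) x.1 + cField C r u.1.2 x + leafLog m u.1.1 x.2

/-- The log-sum at exactly `M` patterns, averaged. -/
noncomputable def pressAt (f : ℝ → ℝ) (C : Conf N) (n : ℕ) (m r : Fin (k + 1) → ℝ) (s : ℝ)
    (y : CIdx (Fin 1) P → ℝ) (M : ℕ) : ℝ :=
  ∫ p, lsum (cExp f C m r s y (M, p.1) p.2) ∂(patLaw N).prod (auxLaw N n k P)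

/-- The gain at exactly `M` patterns. -/
noncomputable def gainAt (f : ℝ → ℝ) (C : Conf N) (n : ℕ) (m r : Fin (k + 1) → ℝ) (s : ℝ)
    (y : CIdx (Fin 1) P → ℝ) (M : ℕ) : ℝ :=
  ∫ p, ∫ g, Real.log (∑ x : C.A × Leaf n k, gibW (cExp f C m r s y (M, p.1) p.2) x *
      Real.exp (f ⟪g, C.pt x.1⟫)) ∂stdGaussian (Sp N) ∂(patLaw N).prod (auxLaw N n k P)

variable (hf : Pot f B) (C : Conf N) (hn : 1 ≤ n) (m r : Fin (k + 1) → ℝ) (s : ℝ)
  (y : CIdx (Fin 1) P → ℝ)

include hn in
lemma nonempty_confLeaf : Nonempty (C.A × Leaf n k) := by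
  have := nonempty_leaf hn k
  infer_instance

include hf hn in
lemma abs_log_gibW_exp_le (e : C.A × Leaf n k → ℝ) (g : Sp N) :
    |Real.log (∑ x : C.A × Leaf n k, gibW e x * Real.exp (f ⟪g, C.pt x.1⟫))| ≤ B := by
  have := nonempty_confLeaf (k := k) C hn
  have hlo : ∑ x, gibW e x * Real.exp (-B) ≤ ∑ x, gibW e x * Real.exp (f ⟪g, C.pt x.1⟫) :=
    Finset.sum_le_sum fun x _ => mul_le_mul_of_nonneg_left
      (Real.exp_le_exp.2 (abs_le.1 (hf.bound _)).1) (gibW_pos e x).le
  have hhi : ∑ x, gibW e x * Real.exp (f ⟪g, C.pt x.1⟫) ≤ ∑ x, gibW e x * Real.exp B :=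
    Finset.sum_le_sum fun x _ => mul_le_mul_of_nonneg_left
      (Real.exp_le_exp.2 (abs_le.1 (hf.bound _)).2) (gibW_pos e x).le
  rw [← Finset.sum_mul, sum_gibW, one_mul] at hlo hhi
  have hp := (Real.exp_pos (-B)).trans_le hlo
  exact abs_le.2 ⟨(Real.le_log_iff_exp_le hp).2 hlo, (Real.log_le_iff_le_exp hp).2 hhi⟩

lemma exponent_eq_cExp (lam : ℝ)
    (z : COmega N n k × EuclideanSpace ℝ (GIdx (Fin 1) P N)) :
    (cSys hf C hn lam m r).expOf s y z = cExp f C m r s y z.1.1 (z.1.2, z.2) := by
  funext x
  exact exponent_cSys hf C hn lam m r s y z.1 z.2 x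

lemma ae_poiLaw_zero : ∀ᵐ j ∂poiLaw 0, j = 0 := by
  have hi : Integrable (fun j : ℕ => (j : ℝ)) (poiLaw 0) := by simpa using integrable_poiLaw_pow 0 1
  filter_upwards [(integral_eq_zero_iff_of_nonneg (fun j : ℕ => Nat.cast_nonneg j) hi).1
    (poiLaw_id le_rfl)] with j hj
  exact Nat.cast_eq_zero.1 hj

/-- The count first, then the patterns and the rest. -/
lemma measurePreserving_count (lam : ℝ) :
    MeasurePreserving (fun z : COmega N n k × EuclideanSpace ℝ (GIdx (Fin 1) P N) =>
        (z.1.1.1, (z.1.1.2, (z.1.2, z.2))))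
      ((((poiLaw lam).prod (patLaw N)).prod (markLaw n k (Fin N))).prod
        (stdGaussian (EuclideanSpace ℝ (GIdx (Fin 1) P N))))
      ((poiLaw lam).prod ((patLaw N).prod (auxLaw N n k P))) :=
  ((measurePreserving_prodAssoc (poiLaw lam) (patLaw N)
    ((markLaw n k (Fin N)).prod (stdGaussian (EuclideanSpace ℝ (GIdx (Fin 1) P N)))))).comp
    (measurePreserving_prodAssoc ((poiLaw lam).prod (patLaw N)) (markLaw n k (Fin N))
      (stdGaussian (EuclideanSpace ℝ (GIdx (Fin 1) P N))))

include hf in
lemma measurable_confExp (a : C.A) :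
    Measurable fun q : (ℕ × (ℕ → Sp N)) × EuclideanSpace ℝ (GIdx (Fin 1) P N) =>
      confExp f C s y q a := by
  unfold confExp confHam
  exact (((measurable_patSum hf C a).comp measurable_fst).add ((Finset.measurable_fun_sum _ fun e _ =>
    (Finset.measurable_fun_sum _ fun i _ => Measurable.mul_const (by fun_prop) _).const_mul _).add_const
      _)).sub_const _

include hf in
lemma measurable_cExp (x : C.A × Leaf n k) :
    Measurable fun q : (ℕ × (ℕ → Sp N)) × Aux N n k P => cExp f C m r s y q.1 q.2 x := by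
  unfold cExp
  exact (((measurable_confExp hf C s y x.1).comp (measurable_fst.prodMk (measurable_snd.comp measurable_snd))).add
    ((continuous_cField C r x).measurable.comp
      (measurable_snd.comp (measurable_fst.comp measurable_snd)))).add
    ((measurable_leafLog m x.2).comp (measurable_fst.comp (measurable_fst.comp measurable_snd)))

include hf in
lemma measurable_lsum_cExp {T : Type} [MeasurableSpace T] {φ : T → ℕ × (ℕ → Sp N)} (hφ : Measurable φ)
    {ψ : T → Aux N n k P} (hψ : Measurable ψ) :
    Measurable fun t => lsum (cExp f C m r s y (φ t) (ψ t)) := by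
  have h : ∀ x, Measurable fun t => cExp f C m r s y (φ t) (ψ t) x := fun x =>
    Measurable.comp (g := fun q : (ℕ × (ℕ → Sp N)) × Aux N n k P => cExp f C m r s y q.1 q.2 x)
      (f := fun t => (φ t, ψ t)) (measurable_cExp hf C m r s y x) (hφ.prodMk hψ)
  unfold lsum
  exact (Finset.measurable_fun_sum _ fun x _ => (h x).exp).log

include hf in
lemma measurable_log_gibW_exp {T : Type} [MeasurableSpace T] {φ : T → ℕ × (ℕ → Sp N)}
    (hφ : Measurable φ) {ψ : T → Aux N n k P} (hψ : Measurable ψ) {ξ : T → Sp N} (hξ : Measurable ξ) :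
    Measurable fun t => Real.log (∑ x : C.A × Leaf n k, gibW (cExp f C m r s y (φ t) (ψ t)) x *
      Real.exp (f ⟪ξ t, C.pt x.1⟫)) := by
  have h : ∀ x, Measurable fun t => cExp f C m r s y (φ t) (ψ t) x := fun x =>
    Measurable.comp (g := fun q : (ℕ × (ℕ → Sp N)) × Aux N n k P => cExp f C m r s y q.1 q.2 x)
      (f := fun t => (φ t, ψ t)) (measurable_cExp hf C m r s y x) (hφ.prodMk hψ)
  unfold gibW
  exact (Finset.measurable_fun_sum _ fun x _ =>
    ((h x).exp.div (Finset.measurable_fun_sum _ fun x' _ => (h x').exp)).mul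
      (hf.meas.comp (hξ.inner measurable_const)).exp).log

include hf hn in
lemma integrable_count (lam : ℝ) :
    Integrable (fun p : ℕ × ((ℕ → Sp N) × Aux N n k P) => lsum (cExp f C m r s y (p.1, p.2.1) p.2.2))
      ((poiLaw lam).prod ((patLaw N).prod (auxLaw N n k P))) := by
  have hmp := measurePreserving_count (N := N) (n := n) (k := k) (P := P) lam
  have hm : Measurable fun p : ℕ × ((ℕ → Sp N) × Aux N n k P) =>
      lsum (cExp f C m r s y (p.1, p.2.1) p.2.2) :=
    measurable_lsum_cExp hf C m r s y (measurable_fst.prodMk (measurable_fst.comp measurable_snd))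
      (measurable_snd.comp measurable_snd)
  refine (hmp.integrable_comp hm.aestronglyMeasurable).1 ?_
  refine ((cSys hf C hn lam m r).integrable_logZ s y).congr (Eventually.of_forall fun z => ?_)
  exact congrArg lsum (exponent_eq_cExp hf C hn m r s y lam z)

include hf hn in
theorem press_eq_count (lam : ℝ) :
    (cSys hf C hn lam m r).press P s y = ∫ M, pressAt f C n m r s y M ∂poiLaw lam := by
  have hmp := measurePreserving_count (N := N) (n := n) (k := k) (P := P) lam
  have hi := integrable_count hf C hn m r s y lam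
  unfold pressAt
  rw [← integral_prod _ hi, ← hmp.map_eq, integral_map hmp.measurable.aemeasurable
    (by rw [hmp.map_eq]; exact hi.aestronglyMeasurable)]
  exact integral_congr_ae (Eventually.of_forall fun z =>
    congrArg lsum (exponent_eq_cExp hf C hn m r s y lam z))

include hf hn in
lemma integrable_at (M : ℕ) :
    Integrable (fun p : (ℕ → Sp N) × Aux N n k P => lsum (cExp f C m r s y (M, p.1) p.2))
      ((patLaw N).prod (auxLaw N n k P)) := by
  -- the patterns move the log-sum by at most `B` each
  have := nonempty_confLeaf (k := k) C hn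
  have hm : ∀ M : ℕ, Measurable fun p : (ℕ → Sp N) × Aux N n k P =>
      lsum (cExp f C m r s y (M, p.1) p.2) := fun M =>
    measurable_lsum_cExp hf C m r s y (measurable_const.prodMk measurable_fst) measurable_snd
  have h0 : Integrable (fun p : (ℕ → Sp N) × Aux N n k P => lsum (cExp f C m r s y (0, p.1) p.2))
      ((patLaw N).prod (auxLaw N n k P)) := by
    have h := integrable_count hf C hn m r s y 0
    refine (measurePreserving_snd (μ := poiLaw 0)
      (ν := (patLaw N).prod (auxLaw N n k P))).integrable_comp (hm 0).aestronglyMeasurable |>.1 ?_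
    refine h.congr ?_
    filter_upwards [Measure.quasiMeasurePreserving_fst.ae
      (show ∀ᵐ j ∂poiLaw 0, j = 0 from ae_poiLaw_zero)] with p hp
    simp only [Function.comp_apply, hp]
  refine (h0.norm.add (integrable_const ((M : ℝ) * B))).mono' (hm M).aestronglyMeasurable
    (Eventually.of_forall fun p => ?_)
  have e : ∀ x, |cExp f C m r s y (M, p.1) p.2 x - cExp f C m r s y (0, p.1) p.2 x| ≤ (M : ℝ) * B :=
    fun x => by
      have h := abs_patSum_le hf C (M, p.1) x.1
      simp only [cExp, confExp, patSum, Finset.range_zero, Finset.sum_empty] at h ⊢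
      refine le_trans (le_of_eq ?_) h
      congr 1
      ring
  have := Vale.Agent.P166F.Dev.abs_lsum_sub_le e
  simp only [Pi.add_apply, Real.norm_eq_abs]
  linarith [abs_sub_abs_le_abs_sub (lsum (cExp f C m r s y (M, p.1) p.2))
    (lsum (cExp f C m r s y (0, p.1) p.2))]

include hf hn in
lemma integrable_pressAt (lam : ℝ) : Integrable (pressAt f C n m r s y) (poiLaw lam) :=
  (integrable_count hf C hn m r s y lam).integral_prod_left

include hf hn in
lemma abs_gainAt_le (M : ℕ) : |gainAt f C n m r s y M| ≤ B := by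
  rw [← Real.norm_eq_abs]
  refine (norm_integral_le_of_norm_le_const (C := B) (Eventually.of_forall fun p => ?_)).trans
    (by simp)
  refine (norm_integral_le_of_norm_le_const (C := B) (Eventually.of_forall fun g => ?_)).trans
    (by simp)
  rw [Real.norm_eq_abs]
  exact abs_log_gibW_exp_le hf C hn _ g

include hf hn in
/-- One more pattern adds the gain. -/
theorem pressAt_succ (M : ℕ) :
    pressAt f C n m r s y (M + 1) = pressAt f C n m r s y M + gainAt f C n m r s y M := by
  have := nonempty_confLeaf (k := k) C hn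
  set π := patLaw N
  set ρ := auxLaw N n k P
  set γ := stdGaussian (Sp N)
  set T : ((ℕ → Sp N) × Aux N n k P) × Sp N → (ℕ → Sp N) × Aux N n k P :=
    fun q => (Function.update q.1.1 M q.2, q.1.2) with hT
  have hTm : MeasurePreserving T ((π.prod ρ).prod γ) (π.prod ρ) := by
    have h1 : MeasurePreserving (fun p : (ℕ → Sp N) × Sp N => Function.update p.1 M p.2)
        (π.prod γ) π := ⟨Vale.Agent.P157.Low.measurable_update_pattern M, map_update_pattern M⟩
    have a := measurePreserving_prodAssoc π ρ γ
    have b := (MeasurePreserving.id π).prod (Measure.measurePreserving_swap (μ := ρ) (ν := γ))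
    have c := (measurePreserving_prodAssoc π γ ρ).symm _
    exact ((h1.prod (MeasurePreserving.id ρ)).comp c).comp (b.comp a)
  set G : ((ℕ → Sp N) × Aux N n k P) × Sp N → ℝ := fun q =>
    Real.log (∑ x : C.A × Leaf n k, gibW (cExp f C m r s y (M, q.1.1) q.1.2) x *
      Real.exp (f ⟪q.2, C.pt x.1⟫))
  have hGm : Measurable G :=
    measurable_log_gibW_exp hf C m r s y (φ := fun q : ((ℕ → Sp N) × Aux N n k P) × Sp N => (M, q.1.1))
      (measurable_const.prodMk (measurable_fst.comp measurable_fst))
      (ψ := fun q => q.1.2) (measurable_snd.comp measurable_fst) (ξ := fun q => q.2) measurable_snd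
  have hGi : Integrable G ((π.prod ρ).prod γ) := Integrable.of_bound hGm.aestronglyMeasurable B
    (Eventually.of_forall fun q => (Real.norm_eq_abs _).trans_le (abs_log_gibW_exp_le hf C hn _ _))
  have hpt : ∀ q, lsum (cExp f C m r s y (M + 1, (T q).1) (T q).2) =
      lsum (cExp f C m r s y (M, q.1.1) q.1.2) + G q := fun q => by
    rw [← lsum_add]
    refine congrArg lsum (funext fun x => ?_)
    simp only [hT, cExp, confExp, patSum, Finset.sum_range_succ, Function.update_self]
    rw [Finset.sum_congr rfl (g := fun b => f ⟪q.1.1 b, C.pt x.1⟫) fun b hb => by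
      rw [Function.update_of_ne (Finset.mem_range.1 hb).ne]]
    ring
  have hiM := (integrable_at hf C hn m r s y M).comp_fst γ
  have hm1 := (integrable_at hf C hn m r s y (M + 1)).aestronglyMeasurable
  unfold pressAt gainAt
  rw [← integral_prod _ hGi]
  conv_lhs => rw [← hTm.map_eq]
  rw [integral_map hTm.measurable.aemeasurable (by rw [hTm.map_eq]; exact hm1),
    integral_congr_ae (Eventually.of_forall hpt), integral_add hiM hGi, integral_prod _ hiM]
  simp [γ, π, ρ]

include hf hn in
lemma abs_pressAt_add (M : ℕ) : ∀ j : ℕ,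
    |pressAt f C n m r s y (M + j) - pressAt f C n m r s y M| ≤ B * j
  | 0 => by simp
  | j + 1 => by
    have h := pressAt_succ hf C hn m r s y (M + j)
    have h1 := abs_le.1 (abs_pressAt_add M j)
    have h2 := abs_le.1 (abs_gainAt_le hf C hn m r s y (M + j))
    rw [← Nat.add_assoc, h, abs_le]
    push_cast
    constructor <;> linarith

include hf hn in
lemma abs_pressAt_sub (M M' : ℕ) :
    |pressAt f C n m r s y M - pressAt f C n m r s y M'| ≤ B * |(M : ℝ) - M'| := by
  rcases le_total M' M with h | h
  · obtain ⟨j, rfl⟩ := Nat.exists_eq_add_of_le h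
    rw [Nat.cast_add, add_sub_cancel_left, Nat.abs_cast]
    exact abs_pressAt_add hf C hn m r s y M' j
  · obtain ⟨j, rfl⟩ := Nat.exists_eq_add_of_le h
    rw [Nat.cast_add, sub_add_cancel_left, abs_neg, Nat.abs_cast, abs_sub_comm]
    exact abs_pressAt_add hf C hn m r s y M j

include hf hn in
theorem cGain_eq (lam : ℝ) :
    cGain hf C hn lam m r s y = ∫ M, gainAt f C n m r s y M ∂poiLaw lam := by
  have hmp := measurePreserving_count (N := N) (n := n) (k := k) (P := P) lam
  set G : ℕ × ((ℕ → Sp N) × Aux N n k P) → ℝ := fun p => ∫ g, Real.log (∑ x : C.A × Leaf n k,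
    gibW (cExp f C m r s y (p.1, p.2.1) p.2.2) x * Real.exp (f ⟪g, C.pt x.1⟫)) ∂stdGaussian (Sp N)
  have hGm : Measurable G := by
    have h := measurable_log_gibW_exp hf C m r s y
      (φ := fun q : (ℕ × ((ℕ → Sp N) × Aux N n k P)) × Sp N => (q.1.1, q.1.2.1))
      ((measurable_fst.comp measurable_fst).prodMk
        (measurable_fst.comp (measurable_snd.comp measurable_fst)))
      (ψ := fun q => q.1.2.2) (measurable_snd.comp (measurable_snd.comp measurable_fst))
      (ξ := fun q => q.2) measurable_snd
    exact (h.stronglyMeasurable.integral_prod_right' (ν := stdGaussian (Sp N))).measurable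
  have hGi : Integrable G ((poiLaw lam).prod ((patLaw N).prod (auxLaw N n k P))) :=
    Integrable.of_bound hGm.aestronglyMeasurable B (Eventually.of_forall fun p => by
      refine (norm_integral_le_of_norm_le_const (C := B) (Eventually.of_forall fun g => ?_)).trans
        (by simp)
      rw [Real.norm_eq_abs]
      exact abs_log_gibW_exp_le hf C hn _ g)
  unfold gainAt
  rw [← integral_prod _ hGi, ← hmp.map_eq, integral_map hmp.measurable.aemeasurable
    (by rw [hmp.map_eq]; exact hGi.aestronglyMeasurable)]
  refine integral_congr_ae (Eventually.of_forall fun z => ?_)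
  simp only [G, exponent_eq_cExp hf C hn m r s y lam z]
  rfl

include hf hn in
theorem abs_cGain_le (lam : ℝ) : |cGain hf C hn lam m r s y| ≤ B := by
  rw [cGain_eq hf C hn m r s y lam, ← Real.norm_eq_abs]
  exact (norm_integral_le_of_norm_le_const (C := B) (Eventually.of_forall fun M =>
    (Real.norm_eq_abs _).trans_le (abs_gainAt_le hf C hn m r s y M))).trans (by simp)

include hf hn in
/-- A short step in time gains at most the gain at its end. -/
theorem press_time_step {lam h : ℝ} (hl : 0 ≤ lam) (hh : 0 ≤ h) :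
    (cSys hf C hn (lam + h) m r).press P s y - (cSys hf C hn lam m r).press P s y ≤
      h * cGain hf C hn (lam + h) m r s y + 4 * B * h ^ 2 := by
  set p := pressAt f C n m r s y
  set g := gainAt f C n m r s y
  have hB := hf.nonneg
  have hg : ∀ M, |g M| ≤ B := abs_gainAt_le hf C hn m r s y
  have hgi : ∀ μ, Integrable g (poiLaw μ) := fun μ =>
    Integrable.of_bound (measurable_of_countable g).aestronglyMeasurable B
      (Eventually.of_forall fun M => (Real.norm_eq_abs _).trans_le (hg M))
  have hadd : ∀ (F : ℕ → ℝ), (∀ μ, Integrable F (poiLaw μ)) →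
      ∫ M, F M ∂poiLaw (lam + h) = ∫ j, ∫ M, F (j + M) ∂poiLaw lam ∂poiLaw h := fun F hF => by
    have h1 : (lam + h).toNNReal = h.toNNReal + lam.toNNReal := by
      rw [Real.toNNReal_add hl hh, add_comm]
    have h2 := hF (lam + h)
    unfold poiLaw at h2 ⊢
    rw [h1] at h2 ⊢
    exact (poisson_add _ _ h2).symm
  have hid : ∀ μ, Integrable (fun j : ℕ => (j : ℝ)) (poiLaw μ) := fun μ => by
    simpa using integrable_poiLaw_pow μ 1
  have hsq : ∫ j : ℕ, (j : ℝ) * ((j : ℝ) - 1) ∂poiLaw h = h ^ 2 := by
    have h1 := poisson_palm h.toNNReal fun n => (n : ℝ) - 1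
    simp only [Nat.cast_add, Nat.cast_one, add_sub_cancel_right, Real.coe_toNNReal _ hh] at h1
    unfold poiLaw
    rw [h1]
    have := poiLaw_id hh
    unfold poiLaw at this
    rw [this, sq]
  -- the gain moves by at most `2 B` per pattern
  have hG : cGain hf C hn lam m r s y ≤ cGain hf C hn (lam + h) m r s y + 2 * B * h := by
    rw [cGain_eq hf C hn m r s y lam, cGain_eq hf C hn m r s y (lam + h), hadd g hgi]
    have hinner : ∀ j : ℕ, ∫ M, g M ∂poiLaw lam - 2 * B * j ≤ ∫ M, g (j + M) ∂poiLaw lam := fun j => by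
      rcases Nat.eq_zero_or_pos j with rfl | hj
      · simp
      · have h1 := norm_integral_le_of_norm_le_const (μ := poiLaw lam) (C := B) (f := g)
          (Eventually.of_forall fun M => (Real.norm_eq_abs _).trans_le (hg M))
        have h2 := norm_integral_le_of_norm_le_const (μ := poiLaw lam) (C := B)
          (f := fun M => g (j + M)) (Eventually.of_forall fun M => (Real.norm_eq_abs _).trans_le (hg _))
        simp only [probReal_univ, mul_one, Real.norm_eq_abs] at h1 h2
        have : (1 : ℝ) ≤ j := by exact_mod_cast hj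
        nlinarith [abs_le.1 h1, abs_le.1 h2]
    have hi : Integrable (fun j : ℕ => ∫ M, g (j + M) ∂poiLaw lam) (poiLaw h) :=
      Integrable.of_bound (measurable_of_countable _).aestronglyMeasurable B
        (Eventually.of_forall fun j => (norm_integral_le_of_norm_le_const (C := B)
          (Eventually.of_forall fun M => (Real.norm_eq_abs _).trans_le (hg _))).trans (by simp))
    have := integral_mono ((integrable_const (∫ M, g M ∂poiLaw lam)).sub ((hid h).const_mul (2 * B)))
      hi hinner
    simp only [Pi.sub_apply] at this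
    rw [integral_sub (integrable_const _) ((hid h).const_mul _), integral_const_mul, poiLaw_id hh] at this
    simp only [integral_const, probReal_univ, one_smul] at this
    linarith
  -- the first-order expansion
  have hP : ∀ μ, Integrable p (poiLaw μ) := integrable_pressAt hf C hn m r s y
  have key : (cSys hf C hn (lam + h) m r).press P s y - (cSys hf C hn lam m r).press P s y ≤
      h * cGain hf C hn lam m r s y + 2 * B * h ^ 2 := by
    rw [press_eq_count hf C hn m r s y, press_eq_count hf C hn m r s y, cGain_eq hf C hn m r s y lam,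
      hadd p hP]
    have hshift : ∀ j : ℕ, Integrable (fun M => p (j + M)) (poiLaw lam) := fun j => by
      refine ((hP lam).norm.add (integrable_const (B * j))).mono'
        (measurable_of_countable _).aestronglyMeasurable (Eventually.of_forall fun M => ?_)
      have h1 := abs_pressAt_add hf C hn m r s y M j
      rw [add_comm M j] at h1
      simp only [Pi.add_apply, Real.norm_eq_abs]
      linarith [abs_sub_abs_le_abs_sub (p (j + M)) (p M)]
    have hinner : ∀ j : ℕ, (∫ M, p (j + M) ∂poiLaw lam) - ∫ M, p M ∂poiLaw lam ≤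
        (j : ℝ) * ∫ M, g M ∂poiLaw lam + 2 * B * ((j : ℝ) * ((j : ℝ) - 1)) := fun j => by
      rw [← integral_sub (hshift j) (hP lam)]
      refine (integral_mono ((hshift j).sub (hP lam))
        (((hgi lam).const_mul (j : ℝ)).add (integrable_const (2 * B * ((j : ℝ) * ((j : ℝ) - 1)))))
        fun M => ?_).trans_eq ?_
      · simp only [Pi.add_apply, Pi.sub_apply]
        rcases j with _ | _ | j
        · simp
        · show p (0 + 1 + M) - p M ≤ ((0 + 1 : ℕ) : ℝ) * g M +
            2 * B * (((0 + 1 : ℕ) : ℝ) * (((0 + 1 : ℕ) : ℝ) - 1))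
          rw [show 0 + 1 + M = M + 1 by omega]
          simp only [p, g, pressAt_succ hf C hn m r s y M]
          simp
        · have h1 := (abs_le.1 (abs_pressAt_add hf C hn m r s y M (j + 1 + 1))).2
          rw [add_comm M] at h1
          have h2 := (abs_le.1 (hg M)).1
          simp only [p] at h1 ⊢
          push_cast at h1 ⊢
          nlinarith [mul_le_mul_of_nonneg_left h2 (by positivity : (0 : ℝ) ≤ (j : ℝ) + 1 + 1),
            mul_nonneg (mul_nonneg hB (by positivity : (0 : ℝ) ≤ (j : ℝ) + 1 + 1)) (Nat.cast_nonneg (α := ℝ) j)]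
      · simp only [Pi.add_apply]
        rw [integral_add ((hgi lam).const_mul _) (integrable_const _), integral_const_mul]
        simp
    have hi : Integrable (fun j : ℕ => ∫ M, p (j + M) ∂poiLaw lam) (poiLaw h) := by
      refine ((integrable_const |∫ M, p M ∂poiLaw lam|).add ((hid h).const_mul B)).mono'
        (measurable_of_countable _).aestronglyMeasurable (Eventually.of_forall fun j => ?_)
      have h1 : |(∫ M, p (j + M) ∂poiLaw lam) - ∫ M, p M ∂poiLaw lam| ≤ B * j := by
        rw [← integral_sub (hshift j) (hP lam), ← Real.norm_eq_abs]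
        refine (norm_integral_le_of_norm_le_const (C := B * j) (Eventually.of_forall fun M => ?_)).trans
          (by simp)
        rw [Real.norm_eq_abs, add_comm j M]
        exact abs_pressAt_add hf C hn m r s y M j
      simp only [Pi.add_apply, Real.norm_eq_abs]
      linarith [abs_sub_abs_le_abs_sub (∫ M, p (j + M) ∂poiLaw lam) (∫ M, p M ∂poiLaw lam)]
    have h2i : Integrable (fun j : ℕ => (j : ℝ) * ((j : ℝ) - 1)) (poiLaw h) := by
      refine ((integrable_poiLaw_pow h 2).sub (hid h)).congr (Eventually.of_forall fun j => ?_)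
      simp only [Pi.sub_apply]
      ring
    have hfin := integral_mono (hi.sub (integrable_const (∫ M, p M ∂poiLaw lam)))
      (((hid h).mul_const (∫ M, g M ∂poiLaw lam)).add (h2i.const_mul (2 * B))) hinner
    simp only [Pi.sub_apply, Pi.add_apply] at hfin
    rw [integral_sub hi (integrable_const _), integral_add ((hid h).mul_const _) (h2i.const_mul _),
      integral_mul_const, integral_const_mul, poiLaw_id hh, hsq] at hfin
    simpa using hfin
  nlinarith [mul_le_mul_of_nonneg_left hG hh]

include hf hn in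
lemma abs_press_sub_at (lam : ℝ) (M₀ : ℕ) :
    |(cSys hf C hn lam m r).press P s y - pressAt f C n m r s y M₀| ≤
      B * ∫ M : ℕ, |(M : ℝ) - M₀| ∂poiLaw lam := by
  have hP := integrable_pressAt hf C hn m r s y lam
  have e : (cSys hf C hn lam m r).press P s y - pressAt f C n m r s y M₀ =
      ∫ M, (pressAt f C n m r s y M - pressAt f C n m r s y M₀) ∂poiLaw lam := by
    rw [press_eq_count hf C hn m r s y, integral_sub hP (integrable_const _)]
    simp
  rw [e, ← integral_const_mul]
  refine abs_integral_le_integral_abs.trans (integral_mono (hP.sub (integrable_const _)).abs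
    ((Integrable.sub (by simpa using integrable_poiLaw_pow lam 1) (integrable_const _)).abs.const_mul B)
    fun M => abs_pressAt_sub hf C hn m r s y M M₀)

include hf hn in
/-- The patterns cost at most `B` each. -/
theorem abs_press_time {lam : ℝ} (hl : 0 ≤ lam) :
    |(cSys hf C hn lam m r).press P s y - (cSys hf C hn 0 m r).press P s y| ≤ B * lam := by
  have h1 := abs_press_sub_at hf C hn m r s y lam 0
  have h2 := abs_press_sub_at hf C hn m r s y 0 0
  simp only [Nat.cast_zero, sub_zero, Nat.abs_cast, poiLaw_id le_rfl, poiLaw_id hl, mul_zero] at h1 h2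
  rw [abs_nonpos_iff, sub_eq_zero] at h2
  rwa [h2]

include hn in
lemma lsum_origin (M : ℕ) (q : ℕ → Sp N) {u : Aux N n k P} (hu : ∀ v, 0 < u.1.1 v) :
    lsum (cExp f C m (0 : Fin (k + 1) → ℝ) s (0 : CIdx (Fin 1) P → ℝ) (M, q) u) =
      Real.log ((∑ a, Real.exp (∑ b : Fin M, f ⟪q b, C.pt a⟫)) / Fintype.card C.A) := by
  have := nonempty_leaf hn k
  have hfield : ∀ x : C.A × Leaf n k, cField C (0 : Fin (k + 1) → ℝ) u.1.2 x = 0 := fun x => by
    set g : FSp N n k := WithLp.toLp 2 fun c => u.1.2 c.1 c.2 with hg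
    have hz : u.1.2 = Vale.Agent.P166F.byNode g := funext fun v => by
      simp [Vale.Agent.P166F.byNode, hg]
    rw [hz, cField_byNode]
    have h0 : cVec C (seqOf (0 : Fin (k + 1) → ℝ)) x = 0 := by
      rw [← inner_self_eq_zero (𝕜 := ℝ), inner_cVec C (R := seqOf (0 : Fin (k + 1) → ℝ)) le_rfl
        fun _ _ => le_rfl]
      simp [seqOf]
    rw [h0, inner_zero_right]
  have hw : ∀ l, 0 < wgt n k (seqOf m) u.1.1 l := fun l => wgt_pos hn (m := seqOf m) hu l
  have hW : 0 < ∑ l, wgt n k (seqOf m) u.1.1 l := Finset.sum_pos (fun l _ => hw l) Finset.univ_nonempty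
  have hc : (0 : ℝ) < Fintype.card C.A := by exact_mod_cast Fintype.card_pos
  have e : ∀ x : C.A × Leaf n k,
      Real.exp (cExp f C m (0 : Fin (k + 1) → ℝ) s (0 : CIdx (Fin 1) P → ℝ) (M, q) u x) =
      (Real.exp (∑ b : Fin M, f ⟪q b, C.pt x.1⟫) / Fintype.card C.A) *
        (wgt n k (seqOf m) u.1.1 x.2 / ∑ l, wgt n k (seqOf m) u.1.1 l) := fun x => by
    have h0 : confHam C s (0 : CIdx (Fin 1) P → ℝ) u.2 x.1 = 0 := by simp [confHam]
    rw [Fin.sum_univ_eq_sum_range (fun b => f ⟪q b, C.pt x.1⟫) M]
    simp only [cExp, confExp, patSum, hfield, h0, add_zero, leafLog, Conf.logCard]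
    rw [Real.exp_add, Real.exp_sub, Real.exp_log hc, Real.exp_log (div_pos (hw _) hW)]
  simp only [lsum, e, Fintype.sum_prod_type, ← Finset.mul_sum, ← Finset.sum_div, div_self hW.ne',
    mul_one]

include hf hn in
lemma pressAt_origin (hN : 1 ≤ N) (M : ℕ) :
    pressAt f C n m (0 : Fin (k + 1) → ℝ) s (0 : CIdx (Fin 1) P → ℝ) M = N * confPressure f C M := by
  have hv : ∀ᵐ p ∂(patLaw N).prod (auxLaw N n k P), ∀ v, 0 < p.2.1.1 v := by
    unfold auxLaw markLaw
    exact Measure.quasiMeasurePreserving_snd.ae (Measure.quasiMeasurePreserving_fst.ae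
      (Measure.quasiMeasurePreserving_fst.ae ae_node_pos'))
  unfold pressAt confPressure
  rw [integral_congr_ae (hv.mono fun p hp => lsum_origin C hn m s M p.1 hp),
    mul_div_cancel₀ _ (by exact_mod_cast (show N ≠ 0 by omega))]
  set H : (Fin M → Sp N) → ℝ := fun g =>
    Real.log ((∑ a, Real.exp (∑ b, f ⟪g b, C.pt a⟫)) / Fintype.card C.A)
  have hH : Measurable H := ((Finset.measurable_fun_sum _ fun a _ => (Finset.measurable_fun_sum _
    fun b _ => hf.meas.comp ((measurable_pi_apply b).inner measurable_const)).exp).div_const _).log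
  rw [integral_fun_fst (μ := patLaw N) (fun q => H fun b => q b), probReal_univ, one_smul,
    ← map_first_patterns (γ := stdGaussian (Sp N)) M,
    integral_map (Measurable.aemeasurable (by fun_prop)) hH.aestronglyMeasurable]
  rfl

include hf hn in
/-- Without fields and perturbation the mean log-sum is the mean pressure of the points. -/
theorem press_origin (hN : 1 ≤ N) {lam : ℝ} (hl : 0 ≤ lam) (M : ℕ) :
    |(cSys hf C hn lam m (0 : Fin (k + 1) → ℝ)).press P s 0 - N * confPressure f C M| ≤
      B * (Real.sqrt lam + |lam - M|) := by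
  rw [← pressAt_origin hf C hn m s hN M]
  refine (abs_press_sub_at hf C hn m _ s _ lam M).trans (mul_le_mul_of_nonneg_left ?_ hf.nonneg)
  have hid : Integrable (fun j : ℕ => (j : ℝ)) (poiLaw lam) := by
    simpa using integrable_poiLaw_pow lam 1
  have hd : Integrable (fun j : ℕ => |(j : ℝ) - lam|) (poiLaw lam) := (hid.sub (integrable_const _)).abs
  have hdev : ∫ j : ℕ, |(j : ℝ) - lam| ∂poiLaw lam ≤ Real.sqrt lam := by
    rcases hl.eq_or_lt with h0 | hpos
    · simp [← h0, poiLaw_id le_rfl]
    have hs : 0 < Real.sqrt lam := Real.sqrt_pos.2 hpos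
    have h2 : Integrable (fun j : ℕ => ((j : ℝ) - lam) ^ 2) (poiLaw lam) := by
      refine (((integrable_poiLaw_pow lam 2).sub (hid.const_mul (2 * lam))).add
        (integrable_const (lam ^ 2))).congr (Eventually.of_forall fun j => ?_)
      simp only [Pi.add_apply, Pi.sub_apply]
      ring
    refine (integral_mono hd ((h2.div_const (2 * Real.sqrt lam)).add
      (integrable_const (Real.sqrt lam / 2))) fun j => abs_le_amgm _ hs).trans_eq ?_
    simp only [Pi.add_apply]
    rw [integral_add (h2.div_const _) (integrable_const _), integral_div, poiLaw_variance hl]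
    simp only [integral_const, probReal_univ, one_smul]
    field_simp
    rw [Real.sq_sqrt hl]
    ring
  refine (integral_mono ((hid.sub (integrable_const _)).abs) (hd.add (integrable_const |lam - M|))
    fun j => abs_sub_le _ _ _).trans ?_
  simp only [Pi.add_apply]
  rw [integral_add hd (integrable_const _)]
  simp only [integral_const, probReal_univ, one_smul]
  linarith

end Vale.Agent.P157F.Up
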