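import Vale.Agent.P157F.Up.Model
import Vale.Agent.P157F.Up.Dev.Root
import Vale.Agent.P157F.Up.Dev.Parts
import Vale.Agent.P166F.Up.Interface

/-!
P157: deviation of the log-sum of the enriched system.
-/

namespace Vale.Agent.P157F.Up

open MeasureTheory ProbabilityTheory Filter
open scoped RealInnerProductSpace
open Vale.Agent.P157 (Pot)
open Vale.Agent.P157.Low (Sp patLaw poiLaw integrable_poiLaw_pow)
open Vale.Agent.P166F (CIdx CBox Levels Mon GIdx FSp seqOf markLaw byNode measurePreserving_byNode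
  treeLog nestVal rootPt leafPt wgt wgt_pos measurable_wgt continuous_leafPt devConst ae_node_pos' lsum)
open Vale.Agent.P166F.Dev (continuous_lsum mad_le_two mad_prod mean_dist_le)
open Vale.Agent.P166N (Node Leaf nonempty_leaf unif)

variable {N n k P : ℕ} {f : ℝ → ℝ} {B : ℝ}

/-- The coefficients of the perturbation at a point. -/
noncomputable def confFeat (C : Conf N) (y : CIdx (Fin 1) P → ℝ) (a : C.A) :
    EuclideanSpace ℝ (GIdx (Fin 1) P N) :=
  WithLp.toLp 2 fun c => y (Sum.inl c.1) * ∏ j, ∏ t, C.pt a (c.2 j t)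

lemma confHam_eq (C : Conf N) (s : ℝ) (y : CIdx (Fin 1) P → ℝ)
    (g : EuclideanSpace ℝ (GIdx (Fin 1) P N)) (a : C.A) :
    confHam C s y g a = ⟪g, confFeat C y a⟫ + s * ∑ j, y (Sum.inr j) := by
  simp only [confHam, confFeat, PiLp.inner_apply, RCLike.inner_apply, conj_trivial,
    Fintype.sum_sigma, Finset.mul_sum]
  refine congrArg (· + _) (Finset.sum_congr rfl fun e _ => Finset.sum_congr rfl fun i _ => ?_)
  ring

lemma norm_confFeat_le (C : Conf N) {S : ℝ} {y : CIdx (Fin 1) P → ℝ} (hy : y ∈ CBox S) (a : C.A) :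
    ‖confFeat C y a‖ ≤ S * Real.sqrt (Fintype.card (CIdx (Fin 1) P)) := by
  have hS : 0 ≤ S := (hy (Sum.inr 0)).1.trans (hy _).2
  rw [← Real.sqrt_sq hS, ← Real.sqrt_mul (sq_nonneg S)]
  refine Real.le_sqrt_of_sq_le ?_
  have h1 : ∀ e : Mon (Fin 1) P,
      ∑ i : (j : Fin 1) → Fin (e.1 j : ℕ) → Fin N, (∏ j, ∏ t, C.pt a (i j t)) ^ 2 = 1 := fun e => by
    simp only [← Finset.prod_pow]
    rw [← Fintype.prod_sum (fun j (i : Fin (e.1 j : ℕ) → Fin N) => ∏ t, C.pt a (i t) ^ 2)]
    refine Finset.prod_eq_one fun j _ => ?_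
    rw [← Fintype.prod_sum (fun (_ : Fin (e.1 j : ℕ)) d => C.pt a d ^ 2)]
    refine Finset.prod_eq_one fun t _ => ?_
    rw [← EuclideanSpace.real_norm_sq_eq, C.unit, one_pow]
  simp only [confFeat, EuclideanSpace.real_norm_sq_eq, Fintype.sum_sigma, mul_pow, ← Finset.mul_sum,
    h1, mul_one]
  refine (Finset.sum_le_card_nsmul _ _ (S ^ 2) fun e _ =>
    pow_le_pow_left₀ (hy _).1 (hy _).2 2).trans ?_
  rw [nsmul_eq_mul, Finset.card_univ, mul_comm, Fintype.card_sum (α := Mon (Fin 1) P)]
  exact mul_le_mul_of_nonneg_left (by exact_mod_cast Nat.le_add_right _ _) (sq_nonneg S)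

/-- The randomness laid out for the tree and the rest. -/
noncomputable def treeSplit (p : (Node n k → ℝ) ×
    ((ℕ × (ℕ → Sp N)) × (EuclideanSpace ℝ (GIdx (Fin 1) P N) × FSp N n k))) :
    ((ℕ × (ℕ → Sp N)) × EuclideanSpace ℝ (GIdx (Fin 1) P N)) ×
      ((Node n k → ℝ) × (Option (Node n k) → EuclideanSpace ℝ (Fin N))) :=
  ((p.2.1, p.2.2.1), (p.1, byNode p.2.2.2))

/-- The randomness of the system assembled from the parts. -/
noncomputable def sysJoin (p : (Node n k → ℝ) ×
    ((ℕ × (ℕ → Sp N)) × (EuclideanSpace ℝ (GIdx (Fin 1) P N) × FSp N n k))) :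
    COmega N n k × EuclideanSpace ℝ (GIdx (Fin 1) P N) :=
  ((p.2.1, (p.1, byNode p.2.2.2)), p.2.2.1)

lemma measurePreserving_treeSplit (μq : Measure (ℕ × (ℕ → Sp N))) [IsProbabilityMeasure μq] :
    MeasurePreserving (treeSplit (n := n) (k := k) (P := P) (N := N))
      ((Measure.pi fun _ : Node n k => unif).prod
        (μq.prod ((stdGaussian (EuclideanSpace ℝ (GIdx (Fin 1) P N))).prod (stdGaussian (FSp N n k)))))
      ((μq.prod (stdGaussian (EuclideanSpace ℝ (GIdx (Fin 1) P N)))).prod (markLaw n k (Fin N))) := by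
  set μV := Measure.pi fun _ : Node n k => unif
  set γg := stdGaussian (EuclideanSpace ℝ (GIdx (Fin 1) P N))
  set γz := stdGaussian (FSp N n k)
  have h1 : MeasurePreserving
      (fun p : (Node n k → ℝ) ×
          ((ℕ × (ℕ → Sp N)) × (EuclideanSpace ℝ (GIdx (Fin 1) P N) × FSp N n k)) =>
        ((p.2.1, p.2.2.1), (p.1, p.2.2.2)))
      (μV.prod (μq.prod (γg.prod γz))) ((μq.prod γg).prod (μV.prod γz)) := by
    have s1 := (MeasurePreserving.id μV).prod
      ((measurePreserving_prodAssoc μq γg γz).symm MeasurableEquiv.prodAssoc)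
    have s2 := (measurePreserving_prodAssoc μV (μq.prod γg) γz).symm MeasurableEquiv.prodAssoc
    have s3 := (Measure.measurePreserving_swap (μ := μV) (ν := μq.prod γg)).prod (MeasurePreserving.id γz)
    exact (measurePreserving_prodAssoc (μq.prod γg) μV γz).comp (s3.comp (s2.comp s1))
  unfold markLaw
  exact ((MeasurePreserving.id (μq.prod γg)).prod
    ((MeasurePreserving.id μV).prod (measurePreserving_byNode _ N))).comp h1

lemma measurePreserving_sysJoin (μq : Measure (ℕ × (ℕ → Sp N))) [IsProbabilityMeasure μq] :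
    MeasurePreserving (sysJoin (n := n) (k := k) (P := P) (N := N))
      ((Measure.pi fun _ : Node n k => unif).prod
        (μq.prod ((stdGaussian (EuclideanSpace ℝ (GIdx (Fin 1) P N))).prod (stdGaussian (FSp N n k)))))
      ((μq.prod (markLaw n k (Fin N))).prod (stdGaussian (EuclideanSpace ℝ (GIdx (Fin 1) P N)))) := by
  set γg := stdGaussian (EuclideanSpace ℝ (GIdx (Fin 1) P N))
  set ml := markLaw n k (Fin N)
  have a1 := measurePreserving_prodAssoc μq γg ml
  have a2 := (MeasurePreserving.id μq).prod (Measure.measurePreserving_swap (μ := γg) (ν := ml))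
  have a3 := MeasurePreserving.symm _ (measurePreserving_prodAssoc μq ml γg)
  exact (a3.comp (a2.comp a1)).comp (measurePreserving_treeSplit μq)

/-- The log-sum of the system at given parts. -/
noncomputable def partsLog (f : ℝ → ℝ) (C : Conf N) (m r : Fin (k + 1) → ℝ) (s : ℝ)
    (y : CIdx (Fin 1) P → ℝ) (p : (Node n k → ℝ) ×
      ((ℕ × (ℕ → Sp N)) × (EuclideanSpace ℝ (GIdx (Fin 1) P N) × FSp N n k))) : ℝ :=
  patGauss f (fun x : C.A × Leaf n k => C.pt x.1)
    (fun x => leafLog m p.1 x.2 - C.logCard + s * ∑ j, y (Sum.inr j))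
    (fun x => confFeat C y x.1) (cVec C (seqOf r)) p.2

lemma logZ_sysJoin (hf : Pot f B) (C : Conf N) (hn : 1 ≤ n) (lam : ℝ) (m r : Fin (k + 1) → ℝ)
    (s : ℝ) (y : CIdx (Fin 1) P → ℝ) (p : (Node n k → ℝ) ×
      ((ℕ × (ℕ → Sp N)) × (EuclideanSpace ℝ (GIdx (Fin 1) P N) × FSp N n k))) :
    (cSys hf C hn lam m r).logZ s y (sysJoin p) = partsLog f C m r s y p := by
  have h : ∀ x : C.A × Leaf n k,
      confExp f C s y ((sysJoin p).1.1, (sysJoin p).2) x.1 + cField C r (sysJoin p).1.2.2 x +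
        leafLog m (sysJoin p).1.2.1 x.2 =
      patExp f p.2.1 (C.pt x.1) + (leafLog m p.1 x.2 - C.logCard + s * ∑ j, y (Sum.inr j) +
        ⟪p.2.2.1, confFeat C y x.1⟫ + ⟪p.2.2.2, cVec C (seqOf r) x⟫) := fun x => by
    simp only [sysJoin, confExp, confHam_eq, cField_byNode, patExp, patSum]
    ring
  exact congrArg lsum (funext fun x => (exponent_cSys hf C hn lam m r s y _ _ x).trans (h x))

lemma partsLog_eq_treeLog (C : Conf N) (hn : 1 ≤ n) (m r : Fin (k + 1) → ℝ) (s : ℝ)
    (y : CIdx (Fin 1) P → ℝ) {p : (Node n k → ℝ) ×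
      ((ℕ × (ℕ → Sp N)) × (EuclideanSpace ℝ (GIdx (Fin 1) P N) × FSp N n k))}
    (hp : ∀ u, 0 < p.1 u) :
    partsLog f C m r s y p = treeLog (n := n) k (seqOf m) (fun j (_ : Fin N) => seqOf r j)
      (confG C (confExp f C s y (treeSplit p).1)) (treeSplit p).2 := by
  have := nonempty_leaf hn k
  have hwp := wgt_pos (m := seqOf m) hn hp
  have hW : 0 < ∑ l, wgt n k (seqOf m) p.1 l :=
    Finset.sum_pos (fun l _ => hwp l) Finset.univ_nonempty
  have he : ∀ x : C.A × Leaf n k, patExp f p.2.1 (C.pt x.1) +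
      (leafLog m p.1 x.2 - C.logCard + s * ∑ j, y (Sum.inr j) + ⟪p.2.2.1, confFeat C y x.1⟫ +
        ⟪p.2.2.2, cVec C (seqOf r) x⟫) =
        leafLog m p.1 x.2 + (confExp f C s y (p.2.1, p.2.2.1) x.1 +
          Real.sqrt N * ⟪leafPt k (fun j (_ : Fin N) => seqOf r j) x.2 (byNode p.2.2.2), C.pt x.1⟫) :=
    fun x => by
    have e : cField C r (byNode p.2.2.2) x =
        Real.sqrt N * ⟪leafPt k (fun j (_ : Fin N) => seqOf r j) x.2 (byNode p.2.2.2), C.pt x.1⟫ := by
      simp only [cField, PiLp.inner_apply, RCLike.inner_apply, conj_trivial, Finset.mul_sum]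
      exact Finset.sum_congr rfl fun i _ => by ring
    rw [← e, cField_byNode]
    simp only [confExp, confHam_eq, patExp, patSum]
    ring
  simp only [partsLog, treeSplit, patGauss, lsum, treeLog, he]
  rw [Fintype.sum_prod_type, Finset.sum_comm, Finset.sum_div]
  refine congrArg Real.log (Finset.sum_congr rfl fun l _ => ?_)
  rw [confG, lsum, Real.exp_log (Finset.sum_pos (fun _ _ => Real.exp_pos _) Finset.univ_nonempty)]
  simp only [leafLog, Real.exp_add, Real.exp_log (div_pos (hwp l) hW), ← Finset.mul_sum]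
  ring

/-- The tree against the value at the root, at random exponents. -/
lemma measurable_treeDiff {Q : Type} [MeasurableSpace Q] (C : Conf N) {m : ℕ → ℝ}
    {R : ℕ → Fin N → ℝ} (hm : ∀ j, 1 ≤ j → j ≤ k → 0 < m j) {b : Q → C.A → ℝ} (hb : Measurable b) :
    Measurable fun q : Q × ((Node n k → ℝ) × (Option (Node n k) → EuclideanSpace ℝ (Fin N))) =>
      treeLog (n := n) k m R (confG C (b q.1)) q.2 -
        nestVal k m R (confG C (b q.1)) (rootPt R (q.2.2 none)) := by
  refine Measurable.sub ?_ ((continuous_confRoot hm).measurable.comp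
    ((hb.comp measurable_fst).prodMk (by fun_prop)))
  refine Measurable.log (Measurable.div ?_ ?_)
  · refine Finset.measurable_fun_sum _ fun l _ => Measurable.mul
      ((measurable_wgt k m l).comp (measurable_fst.comp measurable_snd)) (Measurable.exp ?_)
    refine continuous_lsum.measurable.comp (measurable_pi_lambda _ fun a => Measurable.add
      (((measurable_pi_apply a).comp hb).comp measurable_fst) (Measurable.const_mul ?_ _))
    have hlp : Continuous fun z : Option (Node n k) → EuclideanSpace ℝ (Fin N) => leafPt k R l z := by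
      unfold leafPt; fun_prop
    exact ((hlp.inner continuous_const).measurable).comp (measurable_snd.comp measurable_snd)
  · exact Finset.measurable_fun_sum _ fun l _ =>
      (measurable_wgt k m l).comp (measurable_fst.comp measurable_snd)

/-- The deviation by parts. -/
theorem cSys_dev_parts (hf : Pot f B) {m : Fin (k + 1) → ℝ} (hm : Levels m) (C : Conf N) {lam : ℝ}
    {r : Fin (k + 1) → ℝ} {s S L : ℝ} {y : CIdx (Fin 1) P → ℝ} (hl : 0 ≤ lam) (hr : Monotone r)
    (hrb : ∀ l, 0 ≤ r l ∧ r l ≤ L) (hy : y ∈ CBox S) :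
    ∀ᶠ n in atTop, (cSys hf C (n := n + 1) (by omega) lam m r).dev P s y ≤
      2 * (3 * Real.sqrt (L * N) + 3 * (S * Real.sqrt (Fintype.card (CIdx (Fin 1) P))) +
        6 * (B + 1) * (Real.sqrt lam + 1) + (devConst k (seqOf m) + 2)) := by
  have hm1 : ∀ j, 1 ≤ j → j ≤ k → 0 < seqOf m j ∧ seqOf m j < 1 := fun j h1 h2 => by
    refine ⟨?_, hm.ltOne _⟩
    rw [← hm.zero]
    exact hm.strict (Fin.lt_def.2 (by simp; omega))
  have hm2 : ∀ j, 1 ≤ j → j < k → seqOf m j < seqOf m (j + 1) := fun j h1 h2 =>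
    hm.strict (Fin.lt_def.2 (by simp; omega))
  set R : ℕ → Fin N → ℝ := fun j _ => seqOf r j
  set sc := Real.sqrt (Fintype.card (CIdx (Fin 1) P))
  set μq := (poiLaw lam).prod (patLaw N)
  set γg := stdGaussian (EuclideanSpace ℝ (GIdx (Fin 1) P N))
  set b : (ℕ × (ℕ → Sp N)) × EuclideanSpace ℝ (GIdx (Fin 1) P N) → C.A → ℝ :=
    fun q a => confExp f C s y q a
  have hbm : Measurable b := measurable_pi_lambda _ fun a => by
    simp only [b, confExp, confHam_eq]
    exact (((measurable_patSum hf C a).comp measurable_fst).add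
      (((by fun_prop : Continuous fun g : EuclideanSpace ℝ (GIdx (Fin 1) P N) =>
        ⟪g, confFeat C y a⟫ + s * ∑ j, y (Sum.inr j)).measurable).comp measurable_snd)).sub_const _
  have hbi : Integrable (fun q => ‖b q‖) (μq.prod γg) := by
    have h0 : Integrable (fun ω : ℕ × (ℕ → Sp N) => (ω.1 : ℝ) * B) μq := by
      have h : Integrable (fun M : ℕ => (M : ℝ)) (poiLaw lam) := by
        simpa using integrable_poiLaw_pow lam 1
      exact (h.mul_const B).comp_fst _
    have h1 : Integrable (fun g : EuclideanSpace ℝ (GIdx (Fin 1) P N) =>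
        ‖g‖ * (S * sc) + |s * ∑ j, y (Sum.inr j)|) γg :=
      ((IsGaussian.integrable_id (μ := γg)).norm.mul_const _).add (integrable_const _)
    refine (((h0.comp_fst γg).add (h1.comp_snd μq)).add
      (integrable_const |C.logCard|)).mono' hbm.norm.aestronglyMeasurable
        (Eventually.of_forall fun q => ?_)
    rw [norm_norm]
    have hS : 0 ≤ S := (hy (Sum.inr 0)).1.trans (hy _).2
    refine (pi_norm_le_iff_of_nonneg (add_nonneg (add_nonneg
      (mul_nonneg (Nat.cast_nonneg _) hf.nonneg) (add_nonneg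
        (mul_nonneg (norm_nonneg _) (mul_nonneg hS (Real.sqrt_nonneg _))) (abs_nonneg _)))
          (abs_nonneg _))).2 fun a => ?_
    rw [Real.norm_eq_abs]
    refine (abs_sub _ _).trans (add_le_add ((abs_add_le _ _).trans (add_le_add (abs_patSum_le hf C _ a)
      ?_)) le_rfl)
    rw [confHam_eq]
    exact (abs_add_le _ _).trans (add_le_add ((abs_real_inner_le_norm _ _).trans
      (mul_le_mul_of_nonneg_left (norm_confFeat_le C hy a) (norm_nonneg _))) le_rfl)
  filter_upwards [(tendsto_add_atTop_nat 1).eventually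
    (eventually_mean_confRootDev hm1 hm2 (R := R) hbm hbi)] with n hroot
  obtain ⟨hri, hrb'⟩ := hroot
  have hn : 1 ≤ n + 1 := by omega
  have := nonempty_leaf hn k
  set Sy := cSys hf C hn lam m r
  set μV := Measure.pi fun _ : Node (n + 1) k => unif
  set wlaw := μq.prod (γg.prod (stdGaussian (FSp N (n + 1) k)))
  set F : (Node (n + 1) k → ℝ) ×
      ((ℕ × (ℕ → Sp N)) × (EuclideanSpace ℝ (GIdx (Fin 1) P N) × FSp N (n + 1) k)) → ℝ :=
    partsLog f C m r s y
  have hψ : MeasurePreserving treeSplit (μV.prod wlaw)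
      ((μq.prod γg).prod (markLaw (n + 1) k (Fin N))) := measurePreserving_treeSplit μq
  have hJ : MeasurePreserving sysJoin (μV.prod wlaw)
      ((μq.prod (markLaw (n + 1) k (Fin N))).prod γg) := measurePreserving_sysJoin μq
  have hZ : Measurable fun z => Sy.logZ s y z := Sy.measurable_logZ s y
  have hZi : Integrable (fun z => Sy.logZ s y z) (Sy.full P) := Sy.integrable_logZ s y
  have hZF : ∀ p, Sy.logZ s y (sysJoin p) = F p := fun p => logZ_sysJoin hf C hn lam m r s y p
  have hFi : Integrable F (μV.prod wlaw) := by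
    rw [← funext hZF]
    exact (hJ.integrable_comp hZ.aestronglyMeasurable).2 hZi
  -- the comparison with the value at the root
  set H : (ℕ × (ℕ → Sp N)) × (EuclideanSpace ℝ (GIdx (Fin 1) P N) × FSp N (n + 1) k) → ℝ :=
    fun w => nestVal k (seqOf m) R (confG C (b (w.1, w.2.1))) (rootPt R (byNode w.2.2 none))
  have hHm : Measurable H := (continuous_confRoot fun j h1 h2 => (hm1 j h1 h2).1).measurable.comp
    ((hbm.comp (measurable_fst.prodMk (measurable_fst.comp measurable_snd))).prodMk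
      ((by unfold byNode; fun_prop : Continuous fun z : FSp N (n + 1) k => byNode z none).measurable.comp
        (measurable_snd.comp measurable_snd)))
  set D : ((ℕ × (ℕ → Sp N)) × EuclideanSpace ℝ (GIdx (Fin 1) P N)) ×
      ((Node (n + 1) k → ℝ) × (Option (Node (n + 1) k) → EuclideanSpace ℝ (Fin N))) → ℝ := fun q =>
    treeLog (n := n + 1) k (seqOf m) R (confG C (b q.1)) q.2 -
      nestVal k (seqOf m) R (confG C (b q.1)) (rootPt R (q.2.2 none))
  have hDm : Measurable D := measurable_treeDiff C (fun j h1 h2 => (hm1 j h1 h2).1) hbm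
  have hDi : Integrable D ((μq.prod γg).prod (markLaw (n + 1) k (Fin N))) :=
    (integrable_prod_iff hDm.aestronglyMeasurable).2
      ⟨Eventually.of_forall fun q => integrable_confRootDiff hm1 hm2 hn (b q), by
        simpa only [Real.norm_eq_abs, confRootDev, D] using hri⟩
  have hFD : (fun p => F p - H p.2) =ᵐ[μV.prod wlaw] fun p => D (treeSplit p) := by
    filter_upwards [Measure.quasiMeasurePreserving_fst.ae (ae_node_pos' (n := n + 1) (k := k))] with p hp
    simp only [F, partsLog_eq_treeLog C hn m r s y hp]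
    rfl
  have hdi : Integrable (fun p => F p - H p.2) (μV.prod wlaw) :=
    ((hψ.integrable_comp hDm.aestronglyMeasurable).2 hDi).congr hFD.symm
  have hHi : Integrable H wlaw :=
    (measurePreserving_snd (μ := μV).integrable_comp hHm.aestronglyMeasurable).1
      ((hFi.sub hdi).congr (Eventually.of_forall fun p => sub_sub_cancel _ _))
  set c := ∫ w, H w ∂wlaw
  have htr : ∫ z, |Sy.logZ s y z - c| ∂Sy.full P = ∫ p, |F p - c| ∂μV.prod wlaw := by
    show ∫ z, |Sy.logZ s y z - c| ∂(μq.prod (markLaw (n + 1) k (Fin N))).prod γg = _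
    rw [← hJ.map_eq]
    refine (integral_map hJ.measurable.aemeasurable
      (f := fun z => |Sy.logZ s y z - c|) (hZ.sub_const c).abs.aestronglyMeasurable).trans ?_
    exact integral_congr_ae (Eventually.of_forall fun p => by simp only [hZF])
  have htree : ∫ p, |F p - H p.2| ∂μV.prod wlaw ≤ devConst k (seqOf m) + 2 := by
    rw [integral_congr_ae (hFD.mono fun p hp => congrArg abs hp),
      ← integral_map hψ.measurable.aemeasurable hDm.abs.aestronglyMeasurable, hψ.map_eq,
      integral_prod _ hDi.abs]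
    exact hrb'
  have hlz : ∀ x : C.A × Leaf (n + 1) k, ‖cVec C (seqOf r) x‖ ≤ Real.sqrt (L * N) := fun x => by
    refine Real.le_sqrt_of_sq_le ?_
    have h0 : 0 ≤ seqOf r 0 := (hrb _).1
    have hR : ∀ j < k, seqOf r j ≤ seqOf r (j + 1) := fun j hj =>
      hr (Fin.le_def.2 (show min j k ≤ min (j + 1) k by omega))
    rw [norm_cVec_sq C h0 hR]
    exact mul_le_mul_of_nonneg_right (hrb _).2 (Nat.cast_nonneg _)
  have hrest : ∫ p, |F p - c| ∂μV.prod wlaw ≤ 3 * Real.sqrt (L * N) + 3 * (S * sc) +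
      6 * (B + 1) * (Real.sqrt lam + 1) + (devConst k (seqOf m) + 2) := by
    refine (mad_prod hFi c).trans (add_le_add ?_ ((mean_dist_le hFi hHi).trans htree))
    refine (integral_mono_ae (hFi.sub (hFi.integral_prod_left.comp_fst _)).abs.integral_prod_left
      (integrable_const (3 * Real.sqrt (L * N) + 3 * (S * sc) +
        6 * (B + 1) * (Real.sqrt lam + 1))) (Eventually.of_forall fun v => ?_)).trans_eq (by simp)
    exact mad_patGauss hf hl (fun x : C.A × Leaf (n + 1) k => C.pt x.1)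
      (fun x => leafLog m v x.2 - C.logCard + s * ∑ j, y (Sum.inr j)) (fun x => confFeat C y x.1)
      (cVec C (seqOf r)) (fun x => norm_confFeat_le C hy x.1) hlz
  exact (mad_le_two (μ := Sy.full P) hZi c).trans
    (mul_le_mul_of_nonneg_left (htr.le.trans hrest) zero_le_two)

theorem cSys_dev (hf : Pot f B) (T : ℝ) {m : Fin (k + 1) → ℝ} (hm : Levels m) :
    ∃ Cst, ∀ (N : ℕ) (C : Conf N) (lam : ℝ) (r : Fin (k + 1) → ℝ) (P : ℕ) (s S L : ℝ)
      (y : CIdx (Fin 1) P → ℝ),
      1 ≤ N → 0 ≤ lam → lam ≤ T * N → Monotone r → (∀ l, 0 ≤ r l ∧ r l ≤ L) → 1 ≤ s → s ^ 2 ≤ N →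
      0 ≤ S → y ∈ CBox S →
      ∀ᶠ n in atTop, (cSys hf C (n := n + 1) (by omega) lam m r).dev P s y ≤
        Cst * (1 + L) * ((1 + (S / Real.sqrt N) ^ 2) * Real.sqrt N + S + s) *
          (Fintype.card (CIdx (Fin 1) P) * (P + 1) : ℝ) ^ 2 := by
  refine ⟨2 * (6 + 6 * (B + 1) * (Real.sqrt |T| + 1) + |devConst k (seqOf m) + 2|),
    fun N C lam r P s S L y hN hl hT hr hrb hs1 hs hS hy => ?_⟩
  filter_upwards [cSys_dev_parts hf hm C (s := s) hl hr hrb hy] with n hdev
  refine hdev.trans ?_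
  have hL0 : 0 ≤ L := (hrb 0).1.trans (hrb 0).2
  set rN := Real.sqrt N
  have hrN : 1 ≤ rN := Real.one_le_sqrt.2 (by exact_mod_cast hN)
  set sc := Real.sqrt (Fintype.card (CIdx (Fin 1) P))
  set X := (1 + (S / rN) ^ 2) * rN + S + s
  set D := (Fintype.card (CIdx (Fin 1) P) * (P + 1) : ℝ)
  have hX : rN + S ≤ X := by
    have : 0 ≤ (S / rN) ^ 2 * rN := by positivity
    simp only [X]
    linarith
  have hcard : (1 : ℝ) ≤ Fintype.card (CIdx (Fin 1) P) := by
    exact_mod_cast Fintype.card_pos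
  have hscD : sc ≤ D := by
    have h1 : sc ≤ Fintype.card (CIdx (Fin 1) P) :=
      Real.sqrt_le_iff.2 ⟨by linarith, le_self_pow₀ hcard two_ne_zero⟩
    exact h1.trans (le_mul_of_one_le_right (by linarith) (by linarith [Nat.cast_nonneg (α := ℝ) P]))
  have hD1 : 1 ≤ D := one_le_mul_of_one_le_of_one_le hcard (by linarith [Nat.cast_nonneg (α := ℝ) P])
  set G := (1 + L) * X * D ^ 2
  have g0 : (1 + L) * X ≤ G :=
    le_mul_of_one_le_right (by nlinarith) (one_le_pow₀ hD1)
  have g1 : Real.sqrt (L * N) ≤ G := by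
    refine le_trans ?_ g0
    rw [Real.sqrt_mul hL0]
    refine mul_le_mul (Real.sqrt_le_iff.2 ⟨by linarith, by nlinarith⟩) (by linarith)
      (Real.sqrt_nonneg _) (by linarith)
  have g2 : S * sc ≤ G := by
    refine (mul_le_mul (show S ≤ (1 + L) * X by nlinarith) (hscD.trans (le_self_pow₀ hD1 two_ne_zero))
      (Real.sqrt_nonneg _) (by nlinarith)).trans_eq ?_
    simp only [G]
  have g3 : rN ≤ G := le_trans (by nlinarith) g0
  have hlr : Real.sqrt lam + 1 ≤ (Real.sqrt |T| + 1) * rN := by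
    have h : Real.sqrt lam ≤ Real.sqrt |T| * rN := by
      rw [← Real.sqrt_mul (abs_nonneg T)]
      exact Real.sqrt_le_sqrt (hT.trans (mul_le_mul_of_nonneg_right (le_abs_self T) (Nat.cast_nonneg N)))
    linarith
  have g4 : 6 * (B + 1) * (Real.sqrt lam + 1) ≤ 6 * (B + 1) * (Real.sqrt |T| + 1) * G := by
    rw [mul_assoc _ (Real.sqrt |T| + 1)]
    refine mul_le_mul_of_nonneg_left (hlr.trans ?_) (by linarith [hf.nonneg])
    exact mul_le_mul_of_nonneg_left g3 (by positivity)
  have g5 : devConst k (seqOf m) + 2 ≤ |devConst k (seqOf m) + 2| * G :=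
    (le_abs_self _).trans (le_mul_of_one_le_right (abs_nonneg _) (hrN.trans g3))
  calc _ ≤ 2 * ((6 + 6 * (B + 1) * (Real.sqrt |T| + 1) + |devConst k (seqOf m) + 2|) * G) := by
        linarith
    _ = _ := by ring

end Vale.Agent.P157F.Up
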