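import Vale.Agent.P157F.Up.Model
import Vale.Agent.P166F.Up.FromTree
import Vale.Agent.P166F.Up.Interface

/-!
P157: the enriched system through its trees: the value without patterns and the meeting law.
-/

namespace Vale.Agent.P157F.Up

open MeasureTheory ProbabilityTheory Filter
open scoped Topology RealInnerProductSpace
open Vale.Agent.P157 (Pot)
open Vale.Agent.P157.Low (Sp patLaw poiLaw)
open Vale.Agent.P166F (CIdx GIdx FSp Levels seqOf nestRoot xzero markLaw leafPt wgt wgt_pos measurable_wgt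
  continuous_leafPt ae_node_pos' lsum treeLog meetGe treeParam_seq tendsto_treeLog tendsto_meetGe
  nestRoot_spinG)
open Vale.Agent.P166N (meet Node Leaf nonempty_leaf spinG)

variable {N n k P : ℕ} {f : ℝ → ℝ} {B : ℝ} {m r : Fin (k + 1) → ℝ}

private lemma lip_confG (C : Conf N) (b : C.A → ℝ) :
    Vale.Agent.P157.RSB.Lip (Real.sqrt N) (confG C b) := by
  refine ⟨by unfold confG lsum; fun_prop, Real.sqrt_nonneg _, fun x y => ?_⟩
  have hb : ∀ a, |Real.sqrt N * ⟪y, C.pt a⟫| ≤ Real.sqrt N * ‖y‖ := fun a => by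
    rw [abs_mul, abs_of_nonneg (Real.sqrt_nonneg _)]
    exact mul_le_mul_of_nonneg_left
      ((abs_real_inner_le_norm _ _).trans (by rw [C.unit, mul_one])) (Real.sqrt_nonneg _)
  have h1 := Vale.Agent.P166F.Sys.logSum_le_add (f := fun a => b a + Real.sqrt N * ⟪x + y, C.pt a⟫)
    (f' := fun a => b a + Real.sqrt N * ⟪x, C.pt a⟫) (c := Real.sqrt N * ‖y‖) fun a => by
      rw [inner_add_left, mul_add]; linarith [(abs_le.1 (hb a)).2]
  have h2 := Vale.Agent.P166F.Sys.logSum_le_add (f := fun a => b a + Real.sqrt N * ⟪x, C.pt a⟫)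
    (f' := fun a => b a + Real.sqrt N * ⟪x + y, C.pt a⟫) (c := Real.sqrt N * ‖y‖) fun a => by
      rw [inner_add_left, mul_add]; linarith [(abs_le.1 (hb a)).1]
  simp only [confG, lsum]
  rw [abs_le]
  constructor <;> linarith

private lemma cField_eq (C : Conf N) (r : Fin (k + 1) → ℝ)
    (z : Option (Node n k) → EuclideanSpace ℝ (Fin N)) (x : C.A × Leaf n k) :
    cField C r z x = Real.sqrt N * ⟪leafPt k (fun j _ => seqOf r j) x.2 z, C.pt x.1⟫ := by
  simp only [cField, PiLp.inner_apply, RCLike.inner_apply, conj_trivial, Finset.mul_sum]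
  exact Finset.sum_congr rfl fun i _ => by ring

/-- At fixed patterns and Gaussians the points are summed out leaf by leaf. -/
private lemma sum_leaf_exp (hf : Pot f B) (C : Conf N) (hn : 1 ≤ n) (lam s : ℝ)
    (y : CIdx (Fin 1) P → ℝ) {ω : COmega N n k} (hv : ∀ u, 0 < ω.2.1 u)
    (g : EuclideanSpace ℝ (GIdx (Fin 1) P N)) (l : Leaf n k) :
    ∑ a, Real.exp ((cSys hf C hn lam m r).logw ω (a, l) + (cSys hf C hn lam m r).ham s y ω g (a, l)) =
      wgt n k (seqOf m) ω.2.1 l * Real.exp (confG C (confExp f C s y (ω.1, g))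
        (leafPt k (fun j _ => seqOf r j) l ω.2.2)) / ∑ l', wgt n k (seqOf m) ω.2.1 l' := by
  have := nonempty_leaf hn k
  have hw := wgt_pos (m := seqOf m) hn hv
  have hW : 0 < wgt n k (seqOf m) ω.2.1 l / ∑ l', wgt n k (seqOf m) ω.2.1 l' :=
    div_pos (hw l) (Finset.sum_pos (fun l _ => hw l) Finset.univ_nonempty)
  have e : ∀ a, Real.exp ((cSys hf C hn lam m r).logw ω (a, l) +
      (cSys hf C hn lam m r).ham s y ω g (a, l)) =
      wgt n k (seqOf m) ω.2.1 l / (∑ l', wgt n k (seqOf m) ω.2.1 l') *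
        Real.exp (confExp f C s y (ω.1, g) a +
          Real.sqrt N * ⟪leafPt k (fun j _ => seqOf r j) l ω.2.2, C.pt a⟫) := fun a => by
    rw [exponent_cSys, cField_eq, Real.exp_add _ (leafLog m ω.2.1 l), leafLog, Real.exp_log hW,
      mul_comm]
  rw [Finset.sum_congr rfl fun a _ => e a, ← Finset.mul_sum, confG, lsum,
    Real.exp_log (Finset.sum_pos (fun _ _ => Real.exp_pos _) Finset.univ_nonempty)]
  ring

private lemma poiLaw_zero : poiLaw 0 = Measure.dirac 0 := by
  refine Measure.ext_of_singleton fun M => ?_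
  rw [poiLaw, Real.toNNReal_zero, poissonMeasure,
    Measure.sum_apply _ (MeasurableSet.singleton M), tsum_eq_single 0 fun b hb => by simp [hb]]
  simp

theorem cSys_press_free (hf : Pot f B) (C : Conf N) (hm : Levels m) (hr : Monotone r)
    (hr0 : ∀ l, 0 ≤ r l) (P : ℕ) (s : ℝ) :
    Tendsto (fun n => (cSys hf C (n := n + 1) (by omega) 0 m r).press P s 0) atTop
      (𝓝 (nestRoot k (seqOf m) (fun j _ => seqOf r j) (freeG C))) := by
  refine ((tendsto_treeLog (treeParam_seq hm hr hr0) (lip_confG C _)).comp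
    (tendsto_add_atTop_nat 1)).congr fun n => ?_
  simp only [Function.comp]
  set S := cSys hf C (n := n + 1) (by omega : 1 ≤ n + 1) 0 m r
  set γ := stdGaussian (EuclideanSpace ℝ (GIdx (Fin 1) P N))
  set μ := markLaw (n + 1) k (Fin N) with hμ
  set T := treeLog (n := n + 1) k (seqOf m) (fun j (_ : Fin N) => seqOf r j) (freeG C)
  set ρ := (poiLaw 0).prod (patLaw N)
  have hM : ∀ᵐ q ∂ρ, q.1 = 0 := by
    refine Measure.quasiMeasurePreserving_fst.ae (p := fun M : ℕ => M = 0) ?_
    rw [poiLaw_zero, ae_dirac_eq]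
    exact Filter.eventually_pure.2 rfl
  have h : (fun z : COmega N (n + 1) k × EuclideanSpace ℝ (GIdx (Fin 1) P N) => S.logZ s 0 z)
      =ᵐ[(ρ.prod μ).prod γ] fun z => T z.1.2 := by
    have hv : ∀ᵐ w ∂μ, ∀ u, 0 < w.1 u := by
      rw [hμ]; unfold markLaw
      exact Measure.quasiMeasurePreserving_fst.ae ae_node_pos'
    filter_upwards [Measure.quasiMeasurePreserving_fst.ae (Measure.quasiMeasurePreserving_snd.ae hv),
      Measure.quasiMeasurePreserving_fst.ae (Measure.quasiMeasurePreserving_fst.ae hM)]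
      with z hz h0
    have hen : confExp f C s (0 : CIdx (Fin 1) P → ℝ) (z.1.1, z.2) = fun _ => -C.logCard := by
      funext a
      simp [confExp, confHam, patSum, h0]
    show Real.log (∑ x : C.A × Leaf (n + 1) k, Real.exp (S.logw z.1 x + S.ham s 0 z.1 z.2 x)) = _
    rw [Fintype.sum_prod_type, Finset.sum_comm,
      Finset.sum_congr rfl fun l _ => sum_leaf_exp hf C (by omega) 0 s 0 hz z.2 l, ← Finset.sum_div,
      hen]
    rfl
  show _ = ∫ z, S.logZ s 0 z ∂(ρ.prod μ).prod γ
  rw [integral_congr_ae h, integral_fun_fst (fun p : COmega N (n + 1) k => T p.2), probReal_univ,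
    one_smul, integral_fun_snd (μ := ρ) T, probReal_univ, one_smul]
  rfl

theorem cSys_meet (hf : Pot f B) (C : Conf N) (hm : Levels m) (hr : Monotone r)
    (hr0 : ∀ l, 0 ≤ r l) (lam s : ℝ) (y : CIdx (Fin 1) P → ℝ) (j : Fin (k + 1)) :
    Tendsto (fun n => (cSys hf C (n := n + 1) (by omega) lam m r).avg s y 2 fun _ x =>
        if (j : ℕ) ≤ meet k (x 0).2 (x 1).2 then (1 : ℝ) else 0) atTop (𝓝 (1 - m j)) := by
  set γ := stdGaussian (EuclideanSpace ℝ (GIdx (Fin 1) P N))
  set ρ := (poiLaw lam).prod (patLaw N)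
  set R := fun i (_ : Fin N) => seqOf r i
  set G := fun p : (ℕ × (ℕ → Sp N)) × EuclideanSpace ℝ (GIdx (Fin 1) P N) =>
    confG C (confExp f C s y p) with hG
  set μ : ∀ n, Measure ((Node (n + 1) k → ℝ) × (Option (Node (n + 1) k) → EuclideanSpace ℝ (Fin N))) :=
    fun n => markLaw (n + 1) k (Fin N) with hμ
  have hpos : ∀ n, ∀ᵐ w ∂μ n, ∀ u, 0 < w.1 u := fun n => by
    simp only [hμ]
    unfold markLaw
    exact Measure.quasiMeasurePreserving_fst.ae ae_node_pos'
  have hmeas : ∀ n, Measurable fun q : ((ℕ × (ℕ → Sp N)) × EuclideanSpace ℝ (GIdx (Fin 1) P N)) ×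
      ((Node (n + 1) k → ℝ) × (Option (Node (n + 1) k) → EuclideanSpace ℝ (Fin N))) =>
      meetGe (n := n + 1) k (seqOf m) R (G q.1) j q.2 := fun n => by
    have hen : ∀ a, Measurable fun p : (ℕ × (ℕ → Sp N)) × EuclideanSpace ℝ (GIdx (Fin 1) P N) =>
        confExp f C s y p a := fun a => by
      unfold confExp confHam
      exact (((measurable_patSum hf C a).comp measurable_fst).add
        ((Finset.measurable_fun_sum _ fun e _ => Measurable.const_mul
          (Finset.measurable_fun_sum _ fun i _ => Measurable.mul_const (by fun_prop) _) _).add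
            measurable_const)).sub_const _
    have hle : ∀ l : Leaf (n + 1) k, Measurable fun q : ((ℕ × (ℕ → Sp N)) ×
        EuclideanSpace ℝ (GIdx (Fin 1) P N)) × ((Node (n + 1) k → ℝ) ×
        (Option (Node (n + 1) k) → EuclideanSpace ℝ (Fin N))) =>
        wgt (n + 1) k (seqOf m) q.2.1 l * Real.exp (G q.1 (leafPt k R l q.2.2)) := fun l => by
      refine ((measurable_wgt k (seqOf m) l).comp (measurable_fst.comp measurable_snd)).mul
        (Measurable.exp ?_)
      simp only [hG, confG, lsum]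
      refine (Finset.measurable_fun_sum _ fun a _ => ((hen a).comp measurable_fst).add ?_ |>.exp).log
      simp only [PiLp.inner_apply, RCLike.inner_apply, conj_trivial]
      exact (Finset.measurable_fun_sum _ fun i _ => (((continuous_leafPt R l i).measurable).comp
        (measurable_snd.comp measurable_snd)).const_mul _).const_mul _
    refine Measurable.div (Finset.measurable_fun_sum _ fun l _ => Finset.measurable_fun_sum _
      fun l' _ => ?_) ((Finset.measurable_fun_sum _ fun l _ => hle l).pow_const 2)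
    by_cases hh : (j : ℕ) ≤ meet k l l'
    · simp only [if_pos hh]
      exact (hle l).mul (hle l')
    · simp only [if_neg hh]
      exact measurable_const
  have hbd : ∀ (n : ℕ) (H : EuclideanSpace ℝ (Fin N) → ℝ), ∀ᵐ w ∂μ n,
      0 ≤ meetGe (n := n + 1) k (seqOf m) R H j w ∧ meetGe (n := n + 1) k (seqOf m) R H j w ≤ 1 :=
    fun n H => (hpos n).mono fun w hw => by
      have := nonempty_leaf (n := n + 1) (by omega) k
      have h0 : ∀ l, 0 < wgt (n + 1) k (seqOf m) w.1 l * Real.exp (H (leafPt k R l w.2)) :=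
        fun l => mul_pos (wgt_pos (by omega) hw l) (Real.exp_pos _)
      have hS := Finset.sum_pos (fun l _ => h0 l) Finset.univ_nonempty
      refine ⟨div_nonneg (Finset.sum_nonneg fun l _ => Finset.sum_nonneg fun l' _ => ?_)
        (sq_nonneg _), ?_⟩
      · split_ifs
        exacts [(mul_pos (h0 l) (h0 l')).le, le_rfl]
      · rw [meetGe, div_le_one (pow_pos hS 2), sq, Finset.sum_mul_sum]
        exact Finset.sum_le_sum fun l _ => Finset.sum_le_sum fun l' _ => by
          split_ifs
          exacts [le_rfl, (mul_pos (h0 l) (h0 l')).le]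
  have hlim : ∀ p, Tendsto (fun n => ∫ w, meetGe (n := n + 1) k (seqOf m) R (G p) j w ∂μ n) atTop
      (𝓝 (1 - m j)) := fun p => by
    rcases Nat.eq_zero_or_pos (j : ℕ) with hj | hj
    · have hj' : j = 0 := Fin.ext hj
      rw [hj', hm.zero, sub_zero]
      refine tendsto_const_nhds.congr fun n => ?_
      have := nonempty_leaf (n := n + 1) (by omega) k
      rw [integral_congr_ae ((hpos n).mono fun w hw => show meetGe (n := n + 1) k (seqOf m) R (G p)
        ((0 : Fin (k + 1)) : ℕ) w = (1 : ℝ) from ?_)]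
      · simp [hμ]
      · have hS : 0 < ∑ l, wgt (n + 1) k (seqOf m) w.1 l * Real.exp (G p (leafPt k R l w.2)) :=
          Finset.sum_pos (fun l _ => mul_pos (wgt_pos (by omega) hw l) (Real.exp_pos _))
            Finset.univ_nonempty
        simp only [meetGe, Fin.val_zero, zero_le, if_true, ← Finset.mul_sum, ← Finset.sum_mul, ← sq]
        exact div_self (pow_pos hS 2).ne'
    · have h := (tendsto_meetGe (treeParam_seq (N := N) hm hr hr0) (lip_confG C _) (j := (j : ℕ))
        (G := G p) hj (by omega)).comp (tendsto_add_atTop_nat 1)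
      rwa [show seqOf m (j : ℕ) = m j by rw [seqOf]; congr 1; ext; show min (j : ℕ) k = j; omega] at h
  have hDCT : Tendsto (fun n => ∫ p, (∫ w, meetGe (n := n + 1) k (seqOf m) R (G p) j w ∂μ n)
      ∂ρ.prod γ) atTop (𝓝 (∫ _p, (1 - m j) ∂ρ.prod γ)) := by
    refine tendsto_integral_of_dominated_convergence (fun _ => 1)
      (fun n => (hmeas n).aestronglyMeasurable.integral_prod_right') (integrable_const _)
      (fun n => Eventually.of_forall fun p => ?_) (Eventually.of_forall hlim)
    refine (norm_integral_le_of_norm_le_const (C := 1) ((hbd n (G p)).mono fun w hw => ?_)).trans_eq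
      (by simp [hμ])
    rw [Real.norm_eq_abs, abs_of_nonneg hw.1]
    exact hw.2
  rw [show ∫ _p, (1 - m j) ∂ρ.prod γ = 1 - m j by simp] at hDCT
  refine hDCT.congr fun n => ?_
  set S := cSys hf C (n := n + 1) (by omega : 1 ≤ n + 1) lam m r
  set F := fun q : ((ℕ × (ℕ → Sp N)) × EuclideanSpace ℝ (GIdx (Fin 1) P N)) ×
      ((Node (n + 1) k → ℝ) × (Option (Node (n + 1) k) → EuclideanSpace ℝ (Fin N))) =>
    meetGe (n := n + 1) k (seqOf m) R (G q.1) j q.2
  have hre : MeasurePreserving (fun z : COmega N (n + 1) k × EuclideanSpace ℝ (GIdx (Fin 1) P N) =>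
      ((z.1.1, z.2), z.1.2)) ((ρ.prod (μ n)).prod γ) ((ρ.prod γ).prod (μ n)) :=
    ((measurePreserving_prodAssoc ρ γ (μ n)).symm MeasurableEquiv.prodAssoc).comp
      (((MeasurePreserving.id ρ).prod (Measure.measurePreserving_swap (μ := μ n) (ν := γ))).comp
        (measurePreserving_prodAssoc ρ (μ n) γ))
  have hFi : Integrable F ((ρ.prod γ).prod (μ n)) := by
    refine Integrable.of_bound (hmeas n).aestronglyMeasurable 1
      ((Measure.ae_prod_iff_ae_ae ((measurableSet_le (hmeas n).norm measurable_const))).2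
        (Eventually.of_forall fun p => (hbd n (G p)).mono fun w hw => ?_))
    rw [Real.norm_eq_abs, abs_of_nonneg hw.1]
    exact hw.2
  rw [← integral_prod _ hFi, ← hre.map_eq, integral_map hre.measurable.aemeasurable
    (hmeas n).aestronglyMeasurable]
  refine integral_congr_ae ?_
  filter_upwards [Measure.quasiMeasurePreserving_fst.ae (Measure.quasiMeasurePreserving_snd.ae (hpos n))]
    with z hz
  have hw := wgt_pos (m := seqOf m) (by omega : 1 ≤ n + 1) hz
  set W := ∑ l', wgt (n + 1) k (seqOf m) z.1.2.1 l'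
  have hW : W ≠ 0 := by
    have := nonempty_leaf (n := n + 1) (by omega) k
    exact (Finset.sum_pos (fun l _ => hw l) Finset.univ_nonempty).ne'
  have hsum := fun l => sum_leaf_exp (m := m) (r := r) hf C (by omega : 1 ≤ n + 1) lam s y hz z.2 l
  set A := fun x : C.A × Leaf (n + 1) k => Real.exp (S.logw z.1 x + S.ham s y z.1 z.2 x)
  set D := fun l : Leaf (n + 1) k => wgt (n + 1) k (seqOf m) z.1.2.1 l *
    Real.exp (confG C (confExp f C s y (z.1.1, z.2)) (leafPt k R l z.1.2.2))
  have hA : ∀ l, ∑ a, A (a, l) = D l / W := fun l => hsum l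
  have hnum : ∑ x : Fin 2 → (C.A × Leaf (n + 1) k),
      (∏ i, A (x i)) * (if (j : ℕ) ≤ meet k (x 0).2 (x 1).2 then (1 : ℝ) else 0) =
      ∑ l, ∑ l', (if (j : ℕ) ≤ meet k l l' then D l * D l' else 0) / (W * W) := by
    rw [← (finTwoArrowEquiv _).symm.sum_comp]
    simp only [Fin.prod_univ_two, finTwoArrowEquiv, Equiv.coe_fn_symm_mk, piFinTwoEquiv,
      Matrix.cons_val_zero, Matrix.cons_val_one, Fintype.sum_prod_type]
    rw [Finset.sum_comm]
    refine Finset.sum_congr rfl fun l _ => ?_
    calc _ = ∑ a, ∑ l', ∑ a', A (a, l) * A (a', l') *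
          (if (j : ℕ) ≤ meet k l l' then (1 : ℝ) else 0) := Finset.sum_congr rfl fun a _ => Finset.sum_comm
      _ = ∑ l', ∑ a, ∑ a', A (a, l) * A (a', l') *
          (if (j : ℕ) ≤ meet k l l' then (1 : ℝ) else 0) := Finset.sum_comm
      _ = _ := Finset.sum_congr rfl fun l' _ => by
          simp only [← Finset.sum_mul, ← Finset.mul_sum, hA]
          split_ifs <;> simp [div_mul_div_comm]
  have hden : ∑ x, A x = (∑ l, D l) / W := by
    rw [Fintype.sum_prod_type, Finset.sum_comm, Finset.sum_div]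
    exact Finset.sum_congr rfl fun l _ => hA l
  show _ = (∑ x : Fin 2 → (C.A × Leaf (n + 1) k),
    (∏ i, A (x i)) * (if (j : ℕ) ≤ meet k (x 0).2 (x 1).2 then (1 : ℝ) else 0)) / (∑ x, A x) ^ 2
  rw [hnum, hden]
  simp only [← Finset.sum_div, div_pow, ← sq]
  show (∑ l, ∑ l', if (j : ℕ) ≤ meet k l l' then D l * D l' else 0) / (∑ l, D l) ^ 2 = _
  have hW2 : W ^ 2 ≠ 0 := pow_ne_zero 2 hW
  field_simp

/-- The cube points in a field give the single-site energy of spins. -/
private lemma freeG_cube (hN : 1 ≤ N) (h : EuclideanSpace ℝ (Fin N)) :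
    freeG (cubeConf N hN) h = spinG N h := by
  have hs : Real.sqrt (N : ℝ) ≠ 0 := by
    rw [Real.sqrt_ne_zero']; exact_mod_cast hN
  have hc : (cubeConf N hN).logCard = (N : ℝ) * Real.log 2 := by
    show Real.log ((Fintype.card (Fin N → Bool) : ℕ) : ℝ) = _
    simp [Real.log_pow]
  have e : ∀ a : Fin N → Bool, Real.sqrt N * ⟪h, Vale.Agent.P157.cubeVec N a⟫ =
      ∑ i, h i * Vale.Agent.P157.sgn (a i) := fun a => by
    rw [Vale.Agent.P157.cubeVec, real_inner_smul_right, ← mul_assoc, mul_inv_cancel₀ hs, one_mul]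
    simp [PiLp.inner_apply, mul_comm]
  rw [← Vale.Agent.P166F.spinE_free, Vale.Agent.P166F.spinE, freeG, confG, lsum, hc]
  congr 1
  refine Finset.sum_congr rfl fun a _ => ?_
  exact congrArg Real.exp (congrArg (fun t => -((N : ℝ) * Real.log 2) + t) (e a))

theorem nestRoot_freeG_cube (hN : 1 ≤ N) (hm : Levels m) :
    nestRoot k (seqOf m) (fun j _ => seqOf r j) (freeG (cubeConf N hN)) = N * xzero m r := by
  rw [show freeG (cubeConf N hN) = spinG N from funext (freeG_cube hN)]
  exact nestRoot_spinG hm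

end Vale.Agent.P157F.Up
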