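import Vale.Agent.P157F.Up.Step
import Vale.Agent.P157F.Up.FromTree
import Vale.Agent.P157F.Up.Dev
import Vale.Agent.P157F.Up.Count
import Vale.Agent.P166F.Up.Good

/-!
P157: the maximiser over field variances and coefficients, and what holds there.
-/

namespace Vale.Agent.P157F.Up

open MeasureTheory Filter
open scoped Topology RealInnerProductSpace
open Vale.Agent.P157 (Pot)
open Vale.Agent.P166F (Sys CIdx CBox Mon degr scl pen rad stp gainRem bump rgrid ybox yctr cnum devB
  pairing lmass cumul stepLaw Levels Path seqOf nestRoot rgrid_bounds bump_mem_rgrid zero_mem_rgrid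
  scl_nonneg cnum_nonneg ybox_subset yctr_mem bs bs_pow one_le_bs stp_pos)
open Vale.Agent.P166N (meet)

variable {N n k : ℕ} {f : ℝ → ℝ} {B : ℝ}

/-- The quantity to be maximised. -/
noncomputable def cObj (hf : Pot f B) (C : Conf N) (n : ℕ) (m p : Fin (k + 1) → ℝ) (lam : ℝ)
    (r : Fin (k + 1) → ℝ) (y : CIdx (Fin 1) (degr N) → ℝ) : ℝ :=
  (cSys hf C (n := n + 1) (by omega) lam m r).press (degr N) (scl N) y / N - r (Fin.last k) / 2 +
    pairing m p r - pen 1 N * (∑ i, (y i - 3 / 2 * scl N) ^ 2) / N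

variable (hf : Pot f B) (C : Conf N) (n : ℕ) (m p : Fin (k + 1) → ℝ)

theorem exists_cObj_max (L lam : ℝ) :
    ∃ r ∈ rgrid N k L, ∃ y ∈ ybox 1 N, ∀ r' ∈ rgrid N k L, ∀ y' ∈ ybox 1 N,
      cObj hf C n m p lam r' y' ≤ cObj hf C n m p lam r y := by
  have hne : (ybox 1 N).Nonempty := ⟨_, yctr_mem 1 N⟩
  have hc : IsCompact (ybox 1 N) := isCompact_univ_pi fun _ => isCompact_Icc
  have hcont : ∀ r, Continuous (cObj hf C n m p lam r) := fun r => by
    unfold cObj
    have := Sys.continuous_press (cSys hf C (n := n + 1) (by omega) lam m r) (P := degr N) (scl N)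
    fun_prop
  choose Y hY hmax using fun r => hc.exists_isMaxOn hne (hcont r).continuousOn
  obtain ⟨r, hr, hr'⟩ := Finset.exists_max_image (rgrid N k L)
    (fun r => cObj hf C n m p lam r (Y r)) ⟨0, zero_mem_rgrid L⟩
  exact ⟨r, hr, Y r, hY r, fun r' hr'' y' hy' => (hmax r' hy').trans (hr' r' hr'')⟩

/-- The perturbation costs at most twice the squared scale per coefficient. -/
lemma cpress_box (lam : ℝ) (r : Fin (k + 1) → ℝ) {y : CIdx (Fin 1) (degr N) → ℝ}
    (hy : y ∈ (CBox (2 * scl N) : Set (CIdx (Fin 1) (degr N) → ℝ))) :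
    (cSys hf C (n := n + 1) (by omega) lam m r).press (degr N) (scl N) 0 ≤
        (cSys hf C (n := n + 1) (by omega) lam m r).press (degr N) (scl N) y ∧
      (cSys hf C (n := n + 1) (by omega) lam m r).press (degr N) (scl N) y ≤
        (cSys hf C (n := n + 1) (by omega) lam m r).press (degr N) (scl N) 0 +
          2 * cnum 1 N * scl N ^ 2 := by
  have h := Sys.press_perturb (cSys hf C (n := n + 1) (by omega) lam m r) (scl_nonneg N)
    (y := y) fun j => (hy _).1
  refine ⟨h.1, h.2.trans ?_⟩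
  have h1 : ∑ e : Mon (Fin 1) (degr N), y (Sum.inl e) ^ 2 ≤
      Fintype.card (Mon (Fin 1) (degr N)) * (2 * scl N) ^ 2 := by
    refine (Finset.sum_le_sum fun e _ => pow_le_pow_left₀ (hy _).1 (hy _).2 2).trans_eq ?_
    simp
  have h2 : ∑ j : Fin 1, y (Sum.inr j) ≤ 2 * scl N := by
    rw [Fin.sum_univ_one]
    exact (hy _).2
  have h3 := mul_le_mul_of_nonneg_left h2 (scl_nonneg N)
  have e : cnum 1 N = Fintype.card (Mon (Fin 1) (degr N)) + (1 : ℝ) := by simp [cnum, CIdx]
  rw [e]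
  linarith

lemma confPressure_zero : confPressure f C 0 = 0 := by
  have hc : (Fintype.card C.A : ℝ) ≠ 0 := by exact_mod_cast Fintype.card_ne_zero
  simp [confPressure, hc]

/-- Without fields the objective at the centre is above the pressure, and above minus the cost of
the patterns. -/
lemma cObj_origin (hN : 1 ≤ N) {lam : ℝ} (hl : 0 ≤ lam) :
    (cSys hf C (n := n + 1) (by omega) lam m (0 : Fin (k + 1) → ℝ)).press (degr N) (scl N) 0 / N ≤
        cObj hf C n m p lam 0 (yctr 1 N) ∧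
      -(B * lam / N) ≤ cObj hf C n m p lam 0 (yctr 1 N) := by
  have hN0 : (0 : ℝ) < N := by exact_mod_cast hN
  have h1 := (cpress_box hf C n m lam (0 : Fin (k + 1) → ℝ) (ybox_subset 1 N (yctr_mem 1 N))).1
  have h2 := abs_le.1 (abs_press_time hf C (n := n + 1) (by omega) m (0 : Fin (k + 1) → ℝ) (scl N)
    (0 : CIdx (Fin 1) (degr N) → ℝ) hl)
  have h3 := press_origin hf C (n := n + 1) (P := degr N) (by omega) m (scl N) hN (le_refl (0 : ℝ)) 0
  rw [confPressure_zero C, mul_zero, sub_zero, Nat.cast_zero, sub_zero, Real.sqrt_zero, abs_zero,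
    add_zero, mul_zero, abs_nonpos_iff] at h3
  have e : cObj hf C n m p lam 0 (yctr 1 N) =
      (cSys hf C (n := n + 1) (by omega) lam m (0 : Fin (k + 1) → ℝ)).press (degr N) (scl N)
        (yctr 1 N) / N := by
    simp [cObj, pairing, yctr]
  rw [e]
  refine ⟨div_le_div_of_nonneg_right h1 hN0.le, ?_⟩
  rw [← neg_div]
  refine div_le_div_of_nonneg_right ?_ hN0.le
  linarith [h2.1]

variable {hf C n m p} {α L lam : ℝ} {r : Fin (k + 1) → ℝ} {y : CIdx (Fin 1) (degr N) → ℝ}

/-- The coefficients of a maximiser are deep inside the box. -/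
lemma cmax_interior (hN : 1 ≤ N) (hr : r ∈ rgrid N k L) (hy : y ∈ ybox 1 N)
    (hmax : ∀ r' ∈ rgrid N k L, ∀ y' ∈ ybox 1 N,
      cObj hf C n m p lam r' y' ≤ cObj hf C n m p lam r y) (i : CIdx (Fin 1) (degr N)) :
    |y i - 3 / 2 * scl N| ≤ scl N / 4 := by
  have hN0 : (0 : ℝ) < N := by exact_mod_cast hN
  have h := hmax r hr _ (yctr_mem 1 N)
  have hb := cpress_box hf C n m lam r (ybox_subset 1 N hy)
  have hc := cpress_box hf C n m lam r (ybox_subset 1 N (yctr_mem 1 N))
  have ec : ∑ i, (yctr 1 N i - 3 / 2 * scl N) ^ 2 = 0 := by simp [yctr]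
  simp only [cObj, ec, mul_zero, zero_div, sub_zero] at h
  set D2 := ∑ i, (y i - 3 / 2 * scl N) ^ 2
  set A := (cSys hf C (n := n + 1) (by omega) lam m r).press (degr N) (scl N) y
  set A0 := (cSys hf C (n := n + 1) (by omega) lam m r).press (degr N) (scl N) (yctr 1 N)
  have h1 : pen 1 N * D2 ≤ 2 * cnum 1 N * scl N ^ 2 := by
    have h' : pen 1 N * D2 / N ≤ (A - A0) / N := by rw [sub_div]; linarith
    have := (div_le_div_iff_of_pos_right hN0).1 h'
    linarith [hb.2, hc.1]
  have h2 : (y i - 3 / 2 * scl N) ^ 2 ≤ D2 :=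
    Finset.single_le_sum (f := fun i => (y i - 3 / 2 * scl N) ^ 2) (fun _ _ => sq_nonneg _)
      (Finset.mem_univ i)
  have hc0 := cnum_nonneg 1 N
  have h3 : pen 1 N * (y i - 3 / 2 * scl N) ^ 2 ≤ pen 1 N * (scl N / 4) ^ 2 := by
    refine ((mul_le_mul_of_nonneg_left h2 (by unfold pen; linarith)).trans h1).trans ?_
    unfold pen
    nlinarith [sq_nonneg (scl N)]
  exact abs_le_of_sq_le_sq (le_of_mul_le_mul_left h3 (by unfold pen; linarith))
    (by linarith [scl_nonneg N])

/-- A maximiser is pinned. -/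
lemma cmax_pinned (hN : 1 ≤ N) (hr : r ∈ rgrid N k L) (hy : y ∈ ybox 1 N)
    (hmax : ∀ r' ∈ rgrid N k L, ∀ y' ∈ ybox 1 N,
      cObj hf C n m p lam r' y' ≤ cObj hf C n m p lam r y)
    (hδ : rad N ≤ scl N / 4) {σ : ℝ}
    (hdev : ∀ y' ∈ (CBox (2 * scl N) : Set (CIdx (Fin 1) (degr N) → ℝ)),
      (cSys hf C (n := n + 1) (by omega) lam m r).dev (degr N) (scl N) y' ≤ σ) :
    Vale.Agent.P166F.Pinned (cSys hf C (n := n + 1) (by omega) lam m r) (scl N) y (pen 1 N) σ
      (rad N) := by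
  have hN0 : (0 : ℝ) < N := by exact_mod_cast hN
  have hb0 : 0 < bs N := zero_lt_one.trans_le (one_le_bs hN)
  have hin := cmax_interior hN hr hy hmax
  have hbox : ∀ y' : CIdx (Fin 1) (degr N) → ℝ, (∀ i, |y' i - y i| ≤ rad N) → y' ∈ ybox 1 N :=
    fun y' hy' i _ => by
      have h1 := abs_le.1 (hin i)
      have h2 := abs_le.1 (hy' i)
      constructor <;> linarith [scl_nonneg N]
  refine ⟨⟨pow_pos hb0 3, pow_pos hb0 2, by unfold pen; linarith [cnum_nonneg 1 N]⟩,
    fun e => (hy (Sum.inl e) (Set.mem_univ _)).1, ⟨fun i => 2 * pen 1 N * (y i - 3 / 2 * scl N),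
      fun y' hy' => ?_⟩, fun y' hy' => hdev y' (ybox_subset 1 N (hbox y' hy'))⟩
  have h := hmax r hr y' (hbox y' hy')
  simp only [cObj] at h
  set A := (cSys hf C (n := n + 1) (by omega) lam m r).press (degr N) (scl N) y
  set A' := (cSys hf C (n := n + 1) (by omega) lam m r).press (degr N) (scl N) y'
  have h' : (A' - pen 1 N * ∑ i, (y' i - 3 / 2 * scl N) ^ 2) / N ≤
      (A - pen 1 N * ∑ i, (y i - 3 / 2 * scl N) ^ 2) / N := by
    rw [sub_div, sub_div]; linarith
  have h'' := (div_le_div_iff_of_pos_right hN0).1 h'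
  have e : pen 1 N * ∑ i, (y' i - 3 / 2 * scl N) ^ 2 - pen 1 N * ∑ i, (y i - 3 / 2 * scl N) ^ 2 =
      (∑ i, 2 * pen 1 N * (y i - 3 / 2 * scl N) * (y' i - y i)) +
        pen 1 N * ∑ i, (y' i - y i) ^ 2 := by
    simp only [Finset.mul_sum, ← Finset.sum_sub_distrib, ← Finset.sum_add_distrib]
    exact Finset.sum_congr rfl fun i _ => by ring
  linarith

/-- The variances of a maximiser stay below the coercive level. -/
lemma cmax_below {X : (Fin (k + 1) → ℝ) → ℝ} (hN : 1 ≤ N) (hl : 0 ≤ lam) (hlα : lam ≤ α * N)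
    (hr : r ∈ rgrid N k L) (hy : y ∈ ybox 1 N)
    (hmax : ∀ r' ∈ rgrid N k L, ∀ y' ∈ ybox 1 N,
      cObj hf C n m p lam r' y' ≤ cObj hf C n m p lam r y)
    (hzero : (cSys hf C (n := n + 1) (by omega) 0 m r).press (degr N) (scl N) 0 ≤ N * X r + 2)
    (hsmall : (2 * cnum 1 N * scl N ^ 2 + 2) / N ≤ 1)
    (hL : ∀ r' : Fin (k + 1) → ℝ, Monotone r' → (∀ l, 0 ≤ r' l) → L ≤ r' (Fin.last k) →
      X r' - r' (Fin.last k) / 2 + pairing m p r' ≤ -(2 * α * B + 3)) (hL0 : 0 ≤ L) :
    r (Fin.last k) < L := by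
  by_contra hcon
  obtain ⟨hmono, hb⟩ := rgrid_bounds hL0 hr
  have hN0 : (0 : ℝ) < N := by exact_mod_cast hN
  have h1 := hL r hmono (fun l => (hb l).1) (not_lt.1 hcon)
  have h2 := hmax 0 (zero_mem_rgrid L) _ (yctr_mem 1 N)
  have h3 := (cObj_origin hf C n m p hN hl).2
  have h4 := (cpress_box hf C n m lam r (ybox_subset 1 N hy)).2
  have h5 := abs_le.1 (abs_press_time hf C (n := n + 1) (by omega) m r (scl N)
    (0 : CIdx (Fin 1) (degr N) → ℝ) hl)
  have h7 : (cSys hf C (n := n + 1) (by omega) lam m r).press (degr N) (scl N) y / N ≤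
      X r + B * lam / N + (2 * cnum 1 N * scl N ^ 2 + 2) / N := by
    rw [div_le_iff₀ hN0, add_mul, add_mul, div_mul_cancel₀ _ hN0.ne', div_mul_cancel₀ _ hN0.ne']
    linarith
  have h8 : 0 ≤ pen 1 N * (∑ i, (y i - 3 / 2 * scl N) ^ 2) / N := by
    have := cnum_nonneg 1 N
    unfold pen
    positivity
  have h9 : B * lam / N ≤ α * B := by
    rw [div_le_iff₀ hN0]
    nlinarith [mul_le_mul_of_nonneg_left hlα hf.nonneg]
  have hF : cObj hf C n m p lam r y =
      (cSys hf C (n := n + 1) (by omega) lam m r).press (degr N) (scl N) y / N -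
        r (Fin.last k) / 2 + pairing m p r -
          pen 1 N * (∑ i, (y i - 3 / 2 * scl N) ^ 2) / N := rfl
  linarith

/-- Raising the variances at a maximiser cannot pay. -/
lemma cmax_overlap (hN : 1 ≤ N) (hr : r ∈ rgrid N k L) (hy : y ∈ ybox 1 N)
    (hmax : ∀ r' ∈ rgrid N k L, ∀ y' ∈ ybox 1 N,
      cObj hf C n m p lam r' y' ≤ cObj hf C n m p lam r y)
    (hL0 : 0 ≤ L) (hlast : r (Fin.last k) ≤ L) (j : Fin (k + 1)) :
    (∑ l ∈ Finset.univ.filter (fun l => j ≤ l), lmass m l * p l) -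
        2 * gainRem (stp N * N) / (stp N * N) ≤
      (cSys hf C (n := n + 1) (by omega) lam m r).avg (scl N) y 2 fun _ x => cOvl C j x := by
  obtain ⟨hmono, hb⟩ := rgrid_bounds hL0 hr
  have hN0 : (0 : ℝ) < N := by exact_mod_cast hN
  have h1 := hmax _ (bump_mem_rgrid hr hlast j) y hy
  have h2 := press_bump_ge hf C (n := n + 1) (by omega) lam m r (scl N) y hmono
    (fun l => (hb l).1) (Nat.le_of_lt_succ j.isLt) (stp_pos N).le
  set A := (cSys hf C (n := n + 1) (by omega) lam m r).avg (scl N) y 2 fun _ x => cOvl C j x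
  set Q := ∑ l ∈ Finset.univ.filter (fun l => j ≤ l), lmass m l * p l with hQ
  have e1 : pairing m p (fun l : Fin (k + 1) => r l + bump j (stp N) l) =
      pairing m p r + stp N / 2 * Q := by
    simp only [pairing, hQ, Finset.sum_filter, Finset.mul_sum, Finset.sum_div,
      ← Finset.sum_add_distrib]
    refine Finset.sum_congr rfl fun l _ => ?_
    by_cases hl : j ≤ l
    · rw [if_pos hl, bump, if_pos (Fin.le_iff_val_le_val.1 hl)]; ring
    · rw [if_neg hl, bump, if_neg fun h => hl (Fin.le_iff_val_le_val.2 h)]; ring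
  have e2 : bump j (stp N) (Fin.last k : Fin (k + 1)) = stp N :=
    if_pos (Nat.le_of_lt_succ j.isLt)
  simp only [cObj, e1, e2] at h1
  set X := (cSys hf C (n := n + 1) (by omega) lam m r).press (degr N) (scl N) y
  set X' := (cSys hf C (n := n + 1) (by omega) lam m
    fun l : Fin (k + 1) => r l + bump j (stp N) l).press (degr N) (scl N) y
  have h3 : (X' - X) / N ≤ stp N / 2 * (1 - Q) := by rw [sub_div]; linarith
  rw [div_le_iff₀ hN0] at h3
  have hv : 0 < stp N * N := mul_pos (stp_pos N) hN0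
  rw [sub_le_iff_le_add, ← sub_le_iff_le_add', le_div_iff₀ hv]
  linarith

/-- Where the overlaps above every level are large, the tails lie below those of the path. -/
theorem ctails_bound (hm : Levels m) (hp : Path p) {s : ℝ} {e e' : ℝ} (he' : 0 ≤ e')
    (hov : ∀ j : Fin (k + 1), (∑ l ∈ Finset.univ.filter (fun l => j ≤ l), lmass m l * p l) - e ≤
      (cSys hf C (n := n + 1) (by omega) lam m r).avg s y 2 fun _ x => cOvl C j x)
    (hmeet : ∀ j : Fin (k + 1), ((cSys hf C (n := n + 1) (by omega) lam m r).avg s y 2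
      fun _ x => if (j : ℕ) ≤ meet k (x 0).2 (x 1).2 then (1 : ℝ) else 0) ≤ 1 - m j + e')
    (he : 0 ≤ e) {q : ℝ} (hq : q ∈ Set.Icc (0 : ℝ) 1) :
    (∫ x, max q x ∂stepLaw m p) - (e + e') ≤
      (cSys hf C (n := n + 1) (by omega) lam m r).expect s y
        fun R : Vale.Agent.P166F.OArr (Fin 1) 2 => max q (R 0 1 0) := by
  set S := cSys hf C (n := n + 1) (by omega) lam m r
  have hg : ∀ (ω : S.Ω) (x : Fin 2 → S.X),
      S.gram ω x 0 1 0 = ⟪C.pt (x 0).1, C.pt (x 1).1⟫ := fun _ _ => rfl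
  have hexp : S.expect s y (fun R : Vale.Agent.P166F.OArr (Fin 1) 2 => max q (R 0 1 0)) =
      ∫ z, Vale.Agent.P166F.repAvg (S.expOf s y z)
        (fun x : Fin 2 → S.X => max q ⟪C.pt (x 0).1, C.pt (x 1).1⟫) ∂S.full (degr N) := by
    rw [Sys.expect, Sys.avg_eq_repAvg]
    rfl
  rw [hexp]
  set Θ : (Fin 2 → S.X) → ℝ := fun x => max q ⟪C.pt (x 0).1, C.pt (x 1).1⟫
  have hi1 := S.integrable_repAvg_two s y (Θ := Θ) fun x => by
    rw [abs_of_nonneg (le_max_of_le_left hq.1)]
    exact max_le hq.2 (abs_le.1 (abs_inner_pt_le C _ _)).2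
  rcases (Finset.univ.filter fun l : Fin (k + 1) => q ≤ p l).eq_empty_or_nonempty with h0 | h0
  · have hlo : ∀ l, p l ≤ q := fun l => le_of_lt (by
      by_contra hc
      exact (Finset.notMem_empty l) (h0 ▸ Finset.mem_filter.2 ⟨Finset.mem_univ l, not_lt.1 hc⟩))
    rw [Vale.Agent.P166F.integral_max_stepLaw hm hp q le_rfl (fun l _ => hlo l)
      (fun l hl => absurd hl (by have := l.isLt; omega)), cumul, dif_neg (by omega), mul_one,
      Finset.filter_false_of_mem fun l _ => by have := l.isLt; omega, Finset.sum_empty, add_zero]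
    have h : ∫ _z, q ∂S.full (degr N) ≤
        ∫ z, Vale.Agent.P166F.repAvg (S.expOf s y z) Θ ∂S.full (degr N) :=
      integral_mono (integrable_const q) hi1 fun z =>
      calc q = ∑ x : Fin 2 → S.X, Vale.Agent.P166F.pairW (S.expOf s y z) x * q := by
            rw [← Finset.sum_mul, Vale.Agent.P166F.sum_pairW, one_mul]
        _ ≤ _ := Finset.sum_le_sum fun x _ =>
            mul_le_mul_of_nonneg_left (le_max_left _ _) (Vale.Agent.P166F.pairW_pos _ x).le
    rw [integral_const, probReal_univ, one_smul] at h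
    linarith
  set j := (Finset.univ.filter fun l : Fin (k + 1) => q ≤ p l).min' h0 with hj
  have hjq : q ≤ p j := (Finset.mem_filter.1 (Finset.min'_mem _ h0)).2
  have hlo : ∀ l : Fin (k + 1), (l : ℕ) < j → p l ≤ q := fun l hl => le_of_lt (lt_of_not_ge fun hc =>
    absurd (Finset.min'_le _ l (Finset.mem_filter.2 ⟨Finset.mem_univ l, hc⟩)) (not_le.2 hl))
  rw [Vale.Agent.P166F.integral_max_stepLaw hm hp q (by omega) hlo fun l hl => hjq.trans (hp.mono hl),
    cumul, dif_pos (Nat.le_of_lt_succ j.isLt)]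
  have hA := hov j
  have hB := hmeet j
  simp only [Sys.avg_eq_repAvg] at hA hB
  set Θ₁ : (Fin 2 → S.X) → ℝ := fun x => cOvl C j x
  set Θ₂ : (Fin 2 → S.X) → ℝ := fun x => if (j : ℕ) ≤ meet k (x 0).2 (x 1).2 then (1 : ℝ) else 0
  have hi2 := S.integrable_repAvg_two s y (Θ := Θ₁) (abs_cOvl_le C _)
  have hi3 := S.integrable_repAvg_two s y (Θ := Θ₂) fun x => by simp only [Θ₂]; split_ifs <;> simp
  have key : ∫ z, (q - q * Vale.Agent.P166F.repAvg (S.expOf s y z) Θ₂ +
        Vale.Agent.P166F.repAvg (S.expOf s y z) Θ₁) ∂S.full (degr N) ≤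
      ∫ z, Vale.Agent.P166F.repAvg (S.expOf s y z) Θ ∂S.full (degr N) := by
    refine integral_mono (((integrable_const q).sub (hi3.const_mul q)).add hi2) hi1 fun z => ?_
    show q - q * Vale.Agent.P166F.repAvg (S.expOf s y z) Θ₂ +
      Vale.Agent.P166F.repAvg (S.expOf s y z) Θ₁ ≤ _
    calc q - q * Vale.Agent.P166F.repAvg (S.expOf s y z) Θ₂ +
          Vale.Agent.P166F.repAvg (S.expOf s y z) Θ₁
        = ∑ x, Vale.Agent.P166F.pairW (S.expOf s y z) x * (q - q * Θ₂ x + Θ₁ x) := by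
          simp only [mul_add, mul_sub, Finset.sum_add_distrib, Finset.sum_sub_distrib]
          rw [← Finset.sum_mul, Vale.Agent.P166F.sum_pairW, one_mul]
          simp only [Vale.Agent.P166F.repAvg, Vale.Agent.P166F.pairW, Finset.mul_sum]
          congr 2
          exact Finset.sum_congr rfl fun x _ => by ring
      _ ≤ _ := Finset.sum_le_sum fun x _ =>
          mul_le_mul_of_nonneg_left ?_ (Vale.Agent.P166F.pairW_pos _ x).le
    by_cases hc : (j : ℕ) ≤ meet k (x 0).2 (x 1).2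
    · simp only [Θ, Θ₁, Θ₂, cOvl, if_pos hc, mul_one, sub_self, zero_add]
      exact le_max_right _ _
    · simp only [Θ, Θ₁, Θ₂, cOvl, if_neg hc, mul_zero, sub_zero, add_zero]
      exact le_max_left _ _
  have e1 : (Finset.univ.filter fun l : Fin (k + 1) => (j : ℕ) ≤ l) =
      Finset.univ.filter fun l => j ≤ l := Finset.filter_congr fun l _ => Iff.rfl
  have e2 : ∫ z, (q - q * Vale.Agent.P166F.repAvg (S.expOf s y z) Θ₂ +
        Vale.Agent.P166F.repAvg (S.expOf s y z) Θ₁) ∂S.full (degr N) =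
      q - q * (∫ z, Vale.Agent.P166F.repAvg (S.expOf s y z) Θ₂ ∂S.full (degr N)) +
        ∫ z, Vale.Agent.P166F.repAvg (S.expOf s y z) Θ₁ ∂S.full (degr N) := by
    rw [integral_add (f := fun z => q - q * Vale.Agent.P166F.repAvg (S.expOf s y z) Θ₂)
      ((integrable_const q).sub (hi3.const_mul q)) hi2,
      integral_sub (integrable_const q) (hi3.const_mul q), integral_const_mul, integral_const,
      probReal_univ, one_smul]
  have h1 := mul_le_mul_of_nonneg_left hB hq.1
  have h2 := mul_le_mul_of_nonneg_right hq.2 he'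
  rw [e1]
  linarith

/-- What a choice of the width of the trees secures at size `N`. -/
def CSized (hf : Pot f B) (C : Conf N) (m : Fin (k + 1) → ℝ) (X : (Fin (k + 1) → ℝ) → ℝ)
    (Cst L : ℝ) (T : Finset ℝ) (n : ℕ) : Prop :=
  ∀ r ∈ rgrid N k L,
    (cSys hf C (n := n + 1) (by omega) 0 m r).press (degr N) (scl N) 0 ≤ N * X r + 2 ∧
    ∀ lam ∈ T, ∀ y ∈ (CBox (2 * scl N) : Set (CIdx (Fin 1) (degr N) → ℝ)),
      (cSys hf C (n := n + 1) (by omega) lam m r).dev (degr N) (scl N) y ≤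
          devB 1 (Cst * (1 + (L + 2))) N ∧
      ∀ j : Fin (k + 1), (cSys hf C (n := n + 1) (by omega) lam m r).avg (scl N) y 2
        (fun _ x => if (j : ℕ) ≤ meet k (x 0).2 (x 1).2 then (1 : ℝ) else 0) ≤
          1 - m j + 1 / ((N : ℝ) + 1)

/-- A width of the trees at which the value without patterns, the deviations and the meeting law
are near their limits, on the whole grid and box. -/
theorem exists_csize (hf : Pot f B) (hm : Levels m) (hN : 1 ≤ N) {α Cst : ℝ}
    (hC : ∀ (lam : ℝ) (r : Fin (k + 1) → ℝ) (s S L : ℝ) (y : CIdx (Fin 1) (degr N) → ℝ),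
      0 ≤ lam → lam ≤ α * N → Monotone r → (∀ l, 0 ≤ r l ∧ r l ≤ L) → 1 ≤ s → s ^ 2 ≤ N → 0 ≤ S →
      y ∈ CBox S →
      ∀ᶠ n in atTop, (cSys hf C (n := n + 1) (by omega) lam m r).dev (degr N) s y ≤
        Cst * (1 + L) * ((1 + (S / Real.sqrt N) ^ 2) * Real.sqrt N + S + s) *
          (Fintype.card (CIdx (Fin 1) (degr N)) * (degr N + 1) : ℝ) ^ 2)
    {X : (Fin (k + 1) → ℝ) → ℝ} (T : Finset ℝ) (hT : ∀ lam ∈ T, 0 ≤ lam ∧ lam ≤ α * N) {L : ℝ}
    (hL : 0 ≤ L)
    (hfree : ∀ r ∈ rgrid N k L,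
      nestRoot k (seqOf m) (fun j _ => seqOf r j) (freeG C) ≤ N * X r + 1) :
    ∃ n : ℕ, CSized hf C m X Cst L T n := by
  have hs1 : 1 ≤ scl N := one_le_pow₀ (one_le_bs hN)
  have hs2 : scl N ^ 2 ≤ N := by
    rw [← bs_pow N, scl, ← pow_mul]
    exact pow_le_pow_right₀ (one_le_bs hN) (by norm_num)
  have hcpt := Vale.Agent.P166F.isCompact_cbox (K := 1) (P := degr N) (2 * scl N)
  have h : ∀ᶠ n in atTop, ∀ r ∈ rgrid N k L,
      (cSys hf C (n := n + 1) (by omega) 0 m r).press (degr N) (scl N) 0 ≤ N * X r + 2 ∧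
      ∀ lam ∈ T, (∀ y ∈ (CBox (2 * scl N) : Set (CIdx (Fin 1) (degr N) → ℝ)),
          (cSys hf C (n := n + 1) (by omega) lam m r).dev (degr N) (scl N) y ≤
            devB 1 (Cst * (1 + (L + 2))) N) ∧
        ∀ j ∈ (Finset.univ : Finset (Fin (k + 1))),
          ∀ y ∈ (CBox (2 * scl N) : Set (CIdx (Fin 1) (degr N) → ℝ)),
          (cSys hf C (n := n + 1) (by omega) lam m r).avg (scl N) y 2
            (fun _ x => if (j : ℕ) ≤ meet k (x 0).2 (x 1).2 then (1 : ℝ) else 0) ≤
            1 - m j + 1 / ((N : ℝ) + 1) := by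
    refine (Finset.eventually_all _).2 fun r hr => ?_
    obtain ⟨hmono, hb⟩ := rgrid_bounds hL hr
    refine (((cSys_press_free hf C hm hmono (fun l => (hb l).1) _ _).eventually
      (eventually_le_nhds (lt_add_one _))).mono fun n hn => hn.trans (by linarith [hfree r hr])).and
        ((Finset.eventually_all _).2 fun t ht => ?_)
    refine Filter.Eventually.and ?_ ((Finset.eventually_all _).2 fun j _ => ?_)
    · set D := Cst * (1 + (L + 2)) * ((1 + (2 * scl N / Real.sqrt N) ^ 2) * Real.sqrt N + 2 * scl N +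
        scl N) * (Fintype.card (CIdx (Fin 1) (degr N)) * (degr N + 1) : ℝ) ^ 2 with hD
      refine (Vale.Agent.P166F.eventually_forall_le hcpt (c := D) (fun y _ ε hε => ?_)
        (fun y hy ε hε => ?_) one_pos).mono fun n hn y hy =>
          (hn y hy).trans_eq (by simp only [hD, devB, cnum])
      · refine ⟨_, ((Sys.continuous_meanMove N (scl N) y).const_mul 2).continuousAt.preimage_mem_nhds
          (Iio_mem_nhds (show 2 * Sys.meanMove N (scl N) y y < ε by simp [Sys.meanMove_self, hε])),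
          fun n y' hy' => ?_⟩
        have h := (abs_le.1 (Sys.abs_dev_sub_le (cSys hf C (n := n + 1) (by omega) t m r)
          (scl N) y' y)).2
        have h2 : 2 * Sys.meanMove N (scl N) y' y < ε := hy'
        change _ ≤ 2 * Sys.meanMove N (scl N) y' y at h
        linarith
      · exact (hC t r (scl N) (2 * scl N) (L + 2) y (hT t ht).1 (hT t ht).2
          hmono hb hs1 hs2 (by linarith) hy).mono fun n hn => hn.trans (by linarith)
    · refine (Vale.Agent.P166F.eventually_forall_le hcpt (c := 1 - m j) (fun y _ ε hε => ?_)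
        (fun y _ ε hε => ?_) (show (0 : ℝ) < 1 / ((N : ℝ) + 1) by positivity)).mono
          fun n hn y hy => hn y hy
      · refine ⟨_, (((Sys.continuous_meanMove N (scl N) y).const_mul 4).div_const
          (ε / 2)).continuousAt.preimage_mem_nhds (Iio_mem_nhds
            (show 4 * Sys.meanMove N (scl N) y y / (ε / 2) < ε / 2 by
              simp [Sys.meanMove_self, hε])), fun n y' hy' => ?_⟩
        have h := (abs_le.1 (Sys.abs_avg_sub_le (cSys hf C (n := n + 1) (by omega) t m r)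
          (scl N) y y' (Θ := fun x => if (j : ℕ) ≤ meet k (x 0).2 (x 1).2 then (1 : ℝ) else 0)
          (fun x => by split_ifs <;> simp) (half_pos hε))).2
        have h2 : 4 * Sys.meanMove N (scl N) y' y / (ε / 2) < ε / 2 := hy'
        change _ ≤ ε / 2 + 4 * Sys.meanMove N (scl N) y' y / (ε / 2) at h
        linarith
      · exact (cSys_meet hf C hm hmono (fun l => (hb l).1) t (scl N) y j).eventually
          (eventually_le_nhds (lt_add_of_pos_right _ hε))
  obtain ⟨n, hn⟩ := h.exists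
  exact ⟨n, fun r hr => ⟨(hn r hr).1, fun t ht y hy =>
    ⟨((hn r hr).2 t ht).1 y hy, fun j => ((hn r hr).2 t ht).2 j (Finset.mem_univ j) y hy⟩⟩⟩

end Vale.Agent.P157F.Up
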