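import Vale.Agent.P157.Low.CubeLaw
import Vale.Agent.P166F.Up.Split
import Vale.Agent.P166F.Up.SysFacts

/-!
P157: the enriched system of the upper bound: a finite set of unit points, a Poisson number of
patterns and tree fields of variances `r`, with the points as features.
-/

namespace Vale.Agent.P157F.Up

open MeasureTheory ProbabilityTheory Filter
open scoped RealInnerProductSpace
open Vale.Agent.P157 (Pot)
open Vale.Agent.P157.Low (Sp patLaw poiLaw integrable_poisson_of_le)
open Vale.Agent.P166F (Sys FSp seqOf markLaw leafPt wgt GIdx CIdx ae_node_pos' integrable_log_wgt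
  integrable_leafPt continuous_leafPt abs_log_div_sum wgt_pos measurable_wgt byNode lsum)
open Vale.Agent.P166N (Node Leaf feat0 meet feat0_inner meet_self nonempty_leaf unif)

/-- Finitely many unit points, with the uniform weight. -/
structure Conf (N : ℕ) where
  A : Type
  finA : Fintype A
  neA : Nonempty A
  pt : A → Sp N
  unit : ∀ a, ‖pt a‖ = 1

attribute [instance] Conf.finA Conf.neA

variable {N n k P : ℕ}

/-- The logarithm of the number of points. -/
noncomputable def Conf.logCard (C : Conf N) : ℝ := Real.log (Fintype.card C.A)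

/-- Expected pressure of the points with `M` patterns. -/
noncomputable def confPressure (f : ℝ → ℝ) (C : Conf N) (M : ℕ) : ℝ :=
  (∫ g : Fin M → Sp N, Real.log ((∑ a, Real.exp (∑ b, f ⟪g b, C.pt a⟫)) / Fintype.card C.A)
    ∂Measure.pi fun _ => stdGaussian (Sp N)) / N

/-- The points of the cube. -/
noncomputable def cubeConf (N : ℕ) (hN : 1 ≤ N) : Conf N where
  A := Fin N → Bool
  finA := inferInstance
  neA := inferInstance
  pt := Vale.Agent.P157.cubeVec N
  unit := Vale.Agent.P157.norm_cubeVec hN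

/-- The sum over the patterns at a point. -/
noncomputable def patSum (f : ℝ → ℝ) (C : Conf N) (ω : ℕ × (ℕ → Sp N)) (a : C.A) : ℝ :=
  ∑ b ∈ Finset.range ω.1, f ⟪ω.2 b, C.pt a⟫

/-- The logarithm of the normalised weight of a leaf. -/
noncomputable def leafLog (m : Fin (k + 1) → ℝ) (v : Node n k → ℝ) (l : Leaf n k) : ℝ :=
  Real.log (wgt n k (seqOf m) v l / ∑ l', wgt n k (seqOf m) v l')

/-- The coefficients of the field seen by a point at a leaf. -/
noncomputable def cVec (C : Conf N) (R : ℕ → ℝ) (x : C.A × Leaf n k) : FSp N n k :=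
  WithLp.toLp 2 fun c => feat0 k R x.2 c.1 * (Real.sqrt N * C.pt x.1 c.2)

/-- The tree field at a point and a leaf. -/
noncomputable def cField (C : Conf N) (r : Fin (k + 1) → ℝ)
    (z : Option (Node n k) → EuclideanSpace ℝ (Fin N)) (x : C.A × Leaf n k) : ℝ :=
  ∑ i, leafPt k (fun j _ => seqOf r j) x.2 z i * (Real.sqrt N * C.pt x.1 i)

/-- The disorder of the enriched system. -/
abbrev COmega (N n k : ℕ) :=
  (ℕ × (ℕ → Sp N)) × ((Node n k → ℝ) × (Option (Node n k) → EuclideanSpace ℝ (Fin N)))

/-- The log-weight of a point at a leaf. -/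
noncomputable def cLogw (f : ℝ → ℝ) (C : Conf N) (m r : Fin (k + 1) → ℝ) (ω : COmega N n k)
    (x : C.A × Leaf n k) : ℝ :=
  patSum f C ω.1 x.1 + cField C r ω.2.2 x - C.logCard + leafLog m ω.2.1 x.2

/-! ### Measurability -/

variable {f : ℝ → ℝ} {B : ℝ}

lemma measurable_patSum (hf : Pot f B) (C : Conf N) (a : C.A) :
    Measurable fun ω : ℕ × (ℕ → Sp N) => patSum f C ω a :=
  measurable_from_prod_countable_right fun M => Finset.measurable_fun_sum (Finset.range M) fun b _ =>
    hf.meas.comp (Measurable.inner (measurable_pi_apply b) (measurable_const (a := C.pt a)))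

lemma abs_patSum_le (hf : Pot f B) (C : Conf N) (ω : ℕ × (ℕ → Sp N)) (a : C.A) :
    |patSum f C ω a| ≤ (ω.1 : ℝ) * B :=
  (Finset.abs_sum_le_sum_abs _ _).trans ((Finset.sum_le_sum fun b _ => hf.bound _).trans_eq (by simp))

lemma measurable_leafLog (m : Fin (k + 1) → ℝ) (l : Leaf n k) :
    Measurable fun v : Node n k → ℝ => leafLog m v l :=
  ((measurable_wgt k (seqOf m) l).div
    (Finset.measurable_fun_sum _ fun l' _ => measurable_wgt k (seqOf m) l')).log

lemma continuous_cField (C : Conf N) (r : Fin (k + 1) → ℝ) (x : C.A × Leaf n k) :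
    Continuous fun z : Option (Node n k) → EuclideanSpace ℝ (Fin N) => cField C r z x :=
  continuous_finsetSum _ fun i _ => (continuous_leafPt _ x.2 i).mul_const _

lemma integrable_leafLog (hn : 1 ≤ n) (m : Fin (k + 1) → ℝ) (l : Leaf n k) :
    Integrable (fun v : Node n k → ℝ => leafLog m v l) (Measure.pi fun _ : Node n k => unif) := by
  refine (((integrable_finsetSum Finset.univ fun l' _ =>
    (integrable_log_wgt hn k (seqOf m) l').abs).const_mul 2).add
      (integrable_const (Real.log (Fintype.card (Leaf n k))))).mono'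
    (measurable_leafLog m l).aestronglyMeasurable ?_
  filter_upwards [ae_node_pos'] with v hv
  exact abs_log_div_sum (fun l' => wgt_pos hn (m := seqOf m) hv l') l

lemma integrable_patSum (hf : Pot f B) (C : Conf N) (a : C.A) (lam : ℝ) :
    Integrable (fun ω : ℕ × (ℕ → Sp N) => patSum f C ω a) ((poiLaw lam).prod (patLaw N)) := by
  have hc : Integrable (fun M : ℕ => (M : ℝ) * B) (poiLaw lam) :=
    integrable_poisson_of_le (C := B) (j := 1) fun M => by
      rw [abs_of_nonneg (mul_nonneg (Nat.cast_nonneg _) hf.nonneg), pow_one, mul_comm]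
      exact mul_le_mul_of_nonneg_left (by linarith) hf.nonneg
  exact (hc.comp_fst (patLaw N)).mono' (measurable_patSum hf C a).aestronglyMeasurable
    (Eventually.of_forall fun ω => (Real.norm_eq_abs _).trans_le (abs_patSum_le hf C ω a))

/-- The enriched system. -/
noncomputable def cSys (hf : Pot f B) (C : Conf N) (hn : 1 ≤ n) (lam : ℝ) (m r : Fin (k + 1) → ℝ) :
    Sys (Fin 1) where
  Ω := COmega N n k
  mΩ := inferInstance
  law := ((poiLaw lam).prod (patLaw N)).prod (markLaw n k (Fin N))
  prob := inferInstance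
  X := C.A × Leaf n k
  finX := inferInstance
  neX := by have := nonempty_leaf hn k; infer_instance
  D := N
  v _ x _ := C.pt x.1
  measV _ _ := measurable_const
  norm _ x _ := (C.unit x.1).le
  logw := fun ω x => cLogw f C m r ω x
  measW x := by
    unfold cLogw
    exact ((((measurable_patSum hf C x.1).comp measurable_fst).add
      ((continuous_cField C r x).measurable.comp (measurable_snd.comp measurable_snd))).sub_const
        _).add ((measurable_leafLog m x.2).comp (measurable_fst.comp measurable_snd))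
  intW x := by
    unfold cLogw
    have h1 := (integrable_patSum hf C x.1 lam).comp_fst (markLaw n k (Fin N))
    have h2 : Integrable (fun z : Option (Node n k) → EuclideanSpace ℝ (Fin N) => cField C r z x)
        (Measure.pi fun _ => stdGaussian (EuclideanSpace ℝ (Fin N))) :=
      integrable_finsetSum _ fun i _ => (integrable_leafPt _ x.2 i).mul_const _
    exact ((h1.add ((h2.comp_snd _).comp_snd _)).sub (integrable_const _)).add
      (((integrable_leafLog hn m x.2).comp_fst _).comp_snd _)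

/-! ### The fields -/

lemma cField_byNode (C : Conf N) (r : Fin (k + 1) → ℝ) (x : C.A × Leaf n k) (g : FSp N n k) :
    cField C r (byNode g) x = ⟪g, cVec C (seqOf r) x⟫ := by
  simp only [cField, leafPt, byNode, cVec, PiLp.inner_apply, RCLike.inner_apply, conj_trivial,
    Fintype.sum_prod_type, Finset.sum_mul]
  rw [Finset.sum_comm]
  exact Finset.sum_congr rfl fun ν _ => Finset.sum_congr rfl fun i _ => by ring

lemma inner_cVec (C : Conf N) {R : ℕ → ℝ} (h0 : 0 ≤ R 0) (hR : ∀ j < k, R j ≤ R (j + 1))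
    (x x' : C.A × Leaf n k) :
    ⟪cVec C R x, cVec C R x'⟫ = R (meet k x.2 x'.2) * ((N : ℝ) * ⟪C.pt x.1, C.pt x'.1⟫) := by
  simp only [cVec, PiLp.inner_apply, RCLike.inner_apply, conj_trivial, Fintype.sum_prod_type]
  rw [← feat0_inner h0 hR x.2 x'.2, Finset.sum_mul]
  refine Finset.sum_congr rfl fun ν _ => ?_
  rw [Finset.mul_sum, Finset.mul_sum]
  refine Finset.sum_congr rfl fun i _ => ?_
  have e : Real.sqrt N * Real.sqrt N = (N : ℝ) := Real.mul_self_sqrt (Nat.cast_nonneg N)
  linear_combination (feat0 k R x'.2 ν * C.pt x'.1 i * (feat0 k R x.2 ν * C.pt x.1 i)) * e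

lemma norm_cVec_sq (C : Conf N) {R : ℕ → ℝ} (h0 : 0 ≤ R 0) (hR : ∀ j < k, R j ≤ R (j + 1))
    (x : C.A × Leaf n k) : ‖cVec C R x‖ ^ 2 = R k * N := by
  rw [← real_inner_self_eq_norm_sq, inner_cVec C h0 hR, meet_self, real_inner_self_eq_norm_sq,
    C.unit]
  ring

/-! ### Summing out the points -/

/-- The points summed out in a field, at exponents `b`. -/
noncomputable def confG (C : Conf N) (b : C.A → ℝ) (h : EuclideanSpace ℝ (Fin N)) : ℝ :=
  lsum fun a => b a + Real.sqrt N * ⟪h, C.pt a⟫

/-- The uniform points in a field. -/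
noncomputable def freeG (C : Conf N) : EuclideanSpace ℝ (Fin N) → ℝ :=
  confG C fun _ => -C.logCard

/-- The perturbation at a point. -/
noncomputable def confHam (C : Conf N) (s : ℝ) (y : CIdx (Fin 1) P → ℝ)
    (g : EuclideanSpace ℝ (GIdx (Fin 1) P N)) (a : C.A) : ℝ :=
  (∑ e, y (Sum.inl e) * ∑ i : (j : Fin 1) → Fin (e.1 j : ℕ) → Fin N,
    g ⟨e, i⟩ * ∏ j, ∏ t, C.pt a (i j t)) + s * ∑ j, y (Sum.inr j)

/-- The exponent of a point apart from leaves and fields. -/
noncomputable def confExp (f : ℝ → ℝ) (C : Conf N) (s : ℝ) (y : CIdx (Fin 1) P → ℝ)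
    (q : (ℕ × (ℕ → Sp N)) × EuclideanSpace ℝ (GIdx (Fin 1) P N)) (a : C.A) : ℝ :=
  patSum f C q.1 a + confHam C s y q.2 a - C.logCard

lemma ham_cSys (hf : Pot f B) (C : Conf N) (hn : 1 ≤ n) (lam : ℝ) (m r : Fin (k + 1) → ℝ) (s : ℝ)
    (y : CIdx (Fin 1) P → ℝ) (ω : COmega N n k) (g : EuclideanSpace ℝ (GIdx (Fin 1) P N))
    (x : C.A × Leaf n k) : (cSys hf C hn lam m r).ham s y ω g x = confHam C s y g x.1 := by
  show (∑ e, y (Sum.inl e) * ∑ i : (j : Fin 1) → Fin (e.1 j : ℕ) → Fin N,
    g ⟨e, i⟩ * ∏ j, ∏ t, C.pt x.1 (i j t)) + s * ∑ j, y (Sum.inr j) * ‖C.pt x.1‖ ^ 2 = _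
  simp only [C.unit, one_pow, mul_one, confHam]

/-- The exponent of a configuration, all parts. -/
lemma exponent_cSys (hf : Pot f B) (C : Conf N) (hn : 1 ≤ n) (lam : ℝ) (m r : Fin (k + 1) → ℝ)
    (s : ℝ) (y : CIdx (Fin 1) P → ℝ) (ω : COmega N n k) (g : EuclideanSpace ℝ (GIdx (Fin 1) P N))
    (x : C.A × Leaf n k) :
    (cSys hf C hn lam m r).logw ω x + (cSys hf C hn lam m r).ham s y ω g x =
      confExp f C s y (ω.1, g) x.1 + cField C r ω.2.2 x + leafLog m ω.2.1 x.2 := by
  rw [ham_cSys]
  show cLogw f C m r ω x + _ = _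
  unfold cLogw confExp
  ring

/-- The overlap of two replicas counted above level `j`. -/
noncomputable def cOvl (C : Conf N) (j : ℕ) (x : Fin 2 → C.A × Leaf n k) : ℝ :=
  if j ≤ meet k (x 0).2 (x 1).2 then ⟪C.pt (x 0).1, C.pt (x 1).1⟫ else 0

lemma abs_inner_pt_le (C : Conf N) (a a' : C.A) : |⟪C.pt a, C.pt a'⟫| ≤ 1 :=
  (abs_real_inner_le_norm _ _).trans (by rw [C.unit, C.unit, one_mul])

lemma abs_cOvl_le (C : Conf N) (j : ℕ) (x : Fin 2 → C.A × Leaf n k) : |cOvl C j x| ≤ 1 := by
  unfold cOvl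
  split_ifs
  · exact abs_inner_pt_le C _ _
  · simp

end Vale.Agent.P157F.Up
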