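import Vale.Agent.P157F.Up.Model
import Vale.Agent.P166F.Up.Step
import Vale.Agent.P166F.Up.Perturb

/-!
P157: raising the variances from one level on in the enriched system.
-/

namespace Vale.Agent.P157F.Up

open MeasureTheory ProbabilityTheory Filter
open scoped RealInnerProductSpace
open Vale.Agent.P157 (Pot)
open Vale.Agent.P157.Low (Sp patLaw poiLaw)
open Vale.Agent.P166F (Sys CIdx GIdx FSp markLaw seqOf seqOf_bump bump bump_nonneg bump_mono gainRem lsum
  lsum_add abs_lsum_le gibW gibW_pos sum_gibW repAvg repAvg_eq abs_repAvg_le addLog integrable_addLog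
  integral_addLog_ge integrable_inner integral_gram_eq measurePreserving_sumParts byNode
  measurePreserving_byNode)
open Vale.Agent.P166N (Node Leaf meet meet_self unif nonempty_leaf)

variable {N n k P : ℕ} {f : ℝ → ℝ} {B : ℝ}

/-- The tree fields as Gaussian coordinates, apart from everything else. -/
private lemma measurePreserving_stepJoin {T E : Type} [MeasurableSpace T] [MeasurableSpace E]
    (μ : Measure T) [IsProbabilityMeasure μ] (ρ : Measure E) [IsProbabilityMeasure ρ] :
    MeasurePreserving
      (fun q : ((T × (Node n k → ℝ)) × E) × FSp N n k =>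
        ((q.1.1.1, (q.1.1.2, byNode q.2)), q.1.2))
      (((μ.prod (Measure.pi fun _ => unif)).prod ρ).prod (stdGaussian (FSp N n k)))
      ((μ.prod (markLaw n k (Fin N))).prod ρ) := by
  set μV := Measure.pi fun _ : Node n k => unif
  set μZ := Measure.pi fun _ : Option (Node n k) => stdGaussian (EuclideanSpace ℝ (Fin N))
  have h1 : MeasurePreserving (fun p : ((T × (Node n k → ℝ)) × E) × FSp N n k => (p.1, byNode p.2))
      (((μ.prod μV).prod ρ).prod (stdGaussian (FSp N n k))) (((μ.prod μV).prod ρ).prod μZ) :=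
    (MeasurePreserving.id _).prod (measurePreserving_byNode _ N)
  have h2 : MeasurePreserving
      (fun p : ((T × (Node n k → ℝ)) × E) × (Option (Node n k) → EuclideanSpace ℝ (Fin N)) =>
        ((p.1.1, p.2), p.1.2))
      (((μ.prod μV).prod ρ).prod μZ) (((μ.prod μV).prod μZ).prod ρ) := by
    have a := measurePreserving_prodAssoc (μ.prod μV) ρ μZ
    have b := (MeasurePreserving.id (μ.prod μV)).prod
      (Measure.measurePreserving_swap (μ := ρ) (ν := μZ))
    have c := MeasurePreserving.symm _ (measurePreserving_prodAssoc (μ.prod μV) μZ ρ)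
    exact (c.comp (b.comp a))
  exact ((measurePreserving_prodAssoc μ μV μZ).prod (MeasurePreserving.id ρ)).comp (h2.comp h1)

private lemma integral_of_mp {T T' : Type} [MeasurableSpace T] [MeasurableSpace T'] {μ : Measure T}
    {ν : Measure T'} {J : T → T'} (hJ : MeasurePreserving J μ ν) {F : T' → ℝ} (hF : Integrable F ν)
    {F' : T → ℝ} (h : ∀ q, F (J q) = F' q) :
    Integrable F' μ ∧ ∫ z, F z ∂ν = ∫ q, F' q ∂μ := by
  refine ⟨((hJ.integrable_comp hF.aestronglyMeasurable).2 hF).congr (Eventually.of_forall h), ?_⟩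
  conv_lhs => rw [← hJ.map_eq]
  rw [integral_map hJ.measurable.aemeasurable (by rw [hJ.map_eq]; exact hF.aestronglyMeasurable)]
  exact integral_congr_ae (Eventually.of_forall h)

/-- A functional of the fields with a bumped variance is the same with an independent field added. -/
private lemma integral_cVec_bump (C : Conf N) {R : ℕ → ℝ} (h0 : 0 ≤ R 0)
    (hR : ∀ l < k, R l ≤ R (l + 1)) (j : ℕ) {h : ℝ} (hh : 0 ≤ h) {F : (C.A × Leaf n k → ℝ) → ℝ}
    (hF : Measurable F)
    (hint : Integrable (fun p : FSp N n k × FSp N n k =>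
      F fun x => ⟪p.1, cVec C R x⟫ + ⟪p.2, cVec C (bump j h) x⟫)
      ((stdGaussian (FSp N n k)).prod (stdGaussian (FSp N n k)))) :
    ∫ g, F (fun x => ⟪g, cVec C (fun l => R l + bump j h l) x⟫) ∂stdGaussian (FSp N n k) =
      ∫ g, ∫ g', F (fun x => ⟪g, cVec C R x⟫ + ⟪g', cVec C (bump j h) x⟫)
        ∂stdGaussian (FSp N n k) ∂stdGaussian (FSp N n k) := by
  set Φ' : C.A × Leaf n k →
      EuclideanSpace ℝ ((Option (Node n k) × Fin N) ⊕ (Option (Node n k) × Fin N)) := fun x =>
    WithLp.toLp 2 (Sum.elim (fun c => cVec C R x c) (fun c => cVec C (bump j h) x c)) with hΦ'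
  rw [integral_gram_eq (fun x => cVec C (fun l => R l + bump j h l) x) Φ' (fun x x' => ?_) hF,
    ← integral_prod _ hint, ← (measurePreserving_sumParts (Option (Node n k) × Fin N)
      (Option (Node n k) × Fin N)).map_eq, integral_map
      (measurePreserving_sumParts _ _).measurable.aemeasurable]
  · refine integral_congr_ae (Eventually.of_forall fun g => congrArg F (funext fun x => ?_))
    simp only [Φ', PiLp.inner_apply, Fintype.sum_sum_type, Sum.elim_inl, Sum.elim_inr]
  · rw [(measurePreserving_sumParts _ _).map_eq]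
    exact hint.aestronglyMeasurable
  · rw [inner_cVec C (add_nonneg h0 (bump_nonneg hh 0))
      fun l hl => add_le_add (hR l hl) (bump_mono hh l)]
    have e : ⟪Φ' x, Φ' x'⟫ =
        ⟪cVec C R x, cVec C R x'⟫ + ⟪cVec C (bump j h) x, cVec C (bump j h) x'⟫ := by
      simp only [Φ', PiLp.inner_apply, Fintype.sum_sum_type, Sum.elim_inl, Sum.elim_inr]
    rw [e, inner_cVec C h0 hR, inner_cVec C (bump_nonneg hh 0) fun l _ => bump_mono hh l]
    ring

private lemma norm_cVec_bump_sq (C : Conf N) {j : ℕ} (hj : j ≤ k) {h : ℝ} (hh : 0 ≤ h)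
    (x : C.A × Leaf n k) : ‖cVec C (bump j h) x‖ ^ 2 = h * N := by
  rw [norm_cVec_sq C (bump_nonneg hh 0) fun l _ => bump_mono hh l, bump, if_pos hj]

private lemma sum_pair_cVec (C : Conf N) {j : ℕ} {h : ℝ} (hh : 0 ≤ h)
    (w : C.A × Leaf n k → ℝ) :
    ∑ x, ∑ x', w x * w x' * ⟪cVec C (bump j h) x, cVec C (bump j h) x'⟫ =
      h * N * ∑ x : Fin 2 → C.A × Leaf n k, (∏ l, w (x l)) * cOvl C j x := by
  rw [Finset.mul_sum, ← Fintype.sum_prod_type']
  refine (Fintype.sum_equiv (finTwoArrowEquiv _) _ _ fun x => ?_).symm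
  show _ = w (x 0) * w (x 1) * ⟪cVec C (bump j h) (x 0), cVec C (bump j h) (x 1)⟫
  rw [inner_cVec C (bump_nonneg hh 0) (fun l _ => bump_mono hh l), Fin.prod_univ_two, bump, cOvl]
  split_ifs <;> ring

/-- The gain from one more field on the levels from `j` on, at given exponents. -/
private lemma integral_lsum_cVec_bump_ge (C : Conf N) [Nonempty (C.A × Leaf n k)] {j : ℕ}
    (hj : j ≤ k) {h : ℝ} (hh : 0 ≤ h) (e : C.A × Leaf n k → ℝ) :
    lsum e + h * N / 2 * (1 - repAvg e (cOvl C j)) - gainRem (h * N) ≤
      ∫ g, lsum (fun x => e x + ⟪g, cVec C (bump j h) x⟫) ∂stdGaussian (FSp N n k) := by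
  have hp := gibW_pos e
  have hi := integrable_addLog hp (sum_gibW e) (fun x => cVec C (bump j h) x)
  have key := integral_addLog_ge hp (sum_gibW e) (fun x => cVec C (bump j h) x) (v := h * N)
    fun x => (norm_cVec_bump_sq C hj hh x).le
  have e0 : ∀ g, lsum (fun x => e x + ⟪g, cVec C (bump j h) x⟫) =
      lsum e + addLog (gibW e) (fun x => cVec C (bump j h) x) g := fun g => lsum_add _ _
  simp only [e0]
  rw [integral_add (integrable_const _) hi, integral_const, probReal_univ, one_smul]
  simp only [norm_cVec_bump_sq C hj hh, ← Finset.sum_mul, sum_gibW, one_mul, sum_pair_cVec C hh]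
    at key
  simp only [gainRem, repAvg, addLog] at key ⊢
  linarith

/-- The exponents apart from the tree fields. -/
private noncomputable def stepBase (f : ℝ → ℝ) (C : Conf N) (m : Fin (k + 1) → ℝ) (s : ℝ)
    (y : CIdx (Fin 1) P → ℝ)
    (p : ((ℕ × (ℕ → Sp N)) × (Node n k → ℝ)) × EuclideanSpace ℝ (GIdx (Fin 1) P N))
    (x : C.A × Leaf n k) : ℝ :=
  confExp f C s y (p.1.1, p.2) x.1 + leafLog m p.1.2 x.2

/-- Raising the variances from level `j` on raises the log-sum to first order by what the replicas
fail to share. -/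
theorem press_bump_ge (hf : Pot f B) (C : Conf N) (hn : 1 ≤ n) (lam : ℝ) (m r : Fin (k + 1) → ℝ)
    (s : ℝ) (y : CIdx (Fin 1) P → ℝ) (hr : Monotone r) (hr0 : ∀ l, 0 ≤ r l) {j : ℕ} (hj : j ≤ k)
    {h : ℝ} (hh : 0 ≤ h) :
    (cSys hf C hn lam m r).press P s y +
        h * N / 2 * (1 - (cSys hf C hn lam m r).avg s y 2 fun _ x => cOvl C j x) -
        gainRem (h * N) ≤
      (cSys hf C hn lam m fun l => r l + bump j h l).press P s y := by
  have := nonempty_leaf hn k
  have : Nonempty (C.A × Leaf n k) := inferInstance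
  set Q := (((poiLaw lam).prod (patLaw N)).prod (Measure.pi fun _ : Node n k => unif)).prod
    (stdGaussian (EuclideanSpace ℝ (GIdx (Fin 1) P N)))
  set G := stdGaussian (FSp N n k)
  have hR : ∀ l < k, seqOf r l ≤ seqOf r (l + 1) := fun l _ => hr (Fin.mk_le_mk.2 (by omega))
  set r' := fun l : Fin (k + 1) => r l + bump j h l with hr'
  have hJ := measurePreserving_stepJoin (N := N) (n := n) (k := k) ((poiLaw lam).prod (patLaw N))
    (stdGaussian (EuclideanSpace ℝ (GIdx (Fin 1) P N)))
  set E := fun (ρ : Fin (k + 1) → ℝ)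
    (q : (((ℕ × (ℕ → Sp N)) × (Node n k → ℝ)) × EuclideanSpace ℝ (GIdx (Fin 1) P N)) × FSp N n k)
    (x : C.A × Leaf n k) => stepBase f C m s y q.1 x + ⟪q.2, cVec C (seqOf ρ) x⟫ with hE
  have hexp : ∀ ρ q, (cSys hf C hn lam m ρ).expOf s y
      ((q.1.1.1, (q.1.1.2, byNode q.2)), q.1.2) = E ρ q := fun ρ q => funext fun x => by
    refine (exponent_cSys hf C hn lam m ρ s y _ _ x).trans ?_
    simp only [hE, stepBase]
    linear_combination cField_byNode C ρ x q.2
  have hP : ∀ ρ, Integrable (fun q => lsum (E ρ q)) (Q.prod G) ∧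
      (cSys hf C hn lam m ρ).press P s y = ∫ q, lsum (E ρ q) ∂(Q.prod G) := fun ρ =>
    integral_of_mp hJ ((cSys hf C hn lam m ρ).integrable_logZ s y) fun q =>
      congrArg lsum (hexp ρ q)
  obtain ⟨hA, eA⟩ := hP r
  obtain ⟨hA', eA'⟩ := hP r'
  obtain ⟨hB, eB⟩ := integral_of_mp hJ ((cSys hf C hn lam m r).integrable_repAvg_two s y
    (Θ := cOvl C j) (abs_cOvl_le C j)) fun q => congrArg (fun e => repAvg e (cOvl C j)) (hexp r q)
  have eavg : ((cSys hf C hn lam m r).avg s y 2 fun _ x => cOvl C j x) =
      ∫ q, repAvg (E r q) (cOvl C j) ∂(Q.prod G) := by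
    rw [Sys.avg_eq_repAvg]
    exact eB
  have hL : Integrable (fun q => lsum (E r q) + (h * N / 2 * (1 - repAvg (E r q) (cOvl C j)) -
      gainRem (h * N))) (Q.prod G) :=
    hA.add ((((integrable_const (1 : ℝ)).sub hB).const_mul (h * N / 2)).sub (integrable_const _))
  have hC : Integrable (fun q => h * N / 2 * (1 - repAvg (E r q) (cOvl C j))) (Q.prod G) :=
    ((integrable_const (1 : ℝ)).sub hB).const_mul _
  have e1 : ∫ q, (lsum (E r q) + (h * N / 2 * (1 - repAvg (E r q) (cOvl C j)) -
      gainRem (h * N))) ∂(Q.prod G) = (cSys hf C hn lam m r).press P s y +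
        h * N / 2 * (1 - (cSys hf C hn lam m r).avg s y 2 fun _ x => cOvl C j x) -
        gainRem (h * N) := by
    have hD : Integrable (fun q => h * N / 2 * (1 - repAvg (E r q) (cOvl C j)) - gainRem (h * N))
        (Q.prod G) := hC.sub (integrable_const _)
    rw [integral_add hA hD, integral_sub hC (integrable_const _),
      integral_const_mul, integral_sub (integrable_const _) hB, eA, eavg]
    simp only [integral_const, probReal_univ, one_smul]
    ring
  rw [← e1, eA', integral_prod _ hL, integral_prod _ hA']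
  refine integral_mono hL.integral_prod_left hA'.integral_prod_left fun p => ?_
  set b : C.A × Leaf n k → ℝ := stepBase f C m s y p with hb
  have e2 : ∀ g, E r' (p, g) =
      fun x => b x + ⟪g, cVec C (fun l => seqOf r l + bump j h l) x⟫ := fun g => by
    funext x
    simp only [hE, hr', seqOf_bump r hj h, hb]
  set F : (C.A × Leaf n k → ℝ) → ℝ := fun u => lsum fun x => b x + u x with hF
  have hFm : Measurable F := by rw [hF]; unfold lsum; fun_prop
  have hint : Integrable (fun q : FSp N n k × FSp N n k =>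
      F fun x => ⟪q.1, cVec C (seqOf r) x⟫ + ⟪q.2, cVec C (bump j h) x⟫) (G.prod G) := by
    refine Integrable.mono' ((integrable_finsetSum Finset.univ fun x _ => (((integrable_const |b x|).add
      ((integrable_inner (cVec C (seqOf r) x)).abs.comp_fst _)).add
      ((integrable_inner (cVec C (bump j h) x)).abs.comp_snd _))).add
      (integrable_const (Real.log (Fintype.card (C.A × Leaf n k)))))
      (hFm.comp (by fun_prop)).aestronglyMeasurable (Eventually.of_forall fun q => ?_)
    refine (abs_lsum_le _).trans (add_le_add (Finset.sum_le_sum fun x _ => ?_) le_rfl)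
    simp only [Pi.add_apply]
    rw [add_assoc]
    exact (abs_add_le _ _).trans (add_le_add le_rfl (abs_add_le _ _))
  have hiA : Integrable (fun g => lsum (E r (p, g))) G := by
    refine Integrable.mono' ((integrable_finsetSum Finset.univ fun x _ => ((integrable_const |b x|).add
      (integrable_inner (cVec C (seqOf r) x)).abs)).add
      (integrable_const (Real.log (Fintype.card (C.A × Leaf n k)))))
      (hFm.comp (by fun_prop : Measurable fun g : FSp N n k =>
        fun x => ⟪g, cVec C (seqOf r) x⟫)).aestronglyMeasurable (Eventually.of_forall fun g => ?_)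
    exact (abs_lsum_le _).trans (add_le_add (Finset.sum_le_sum fun x _ => abs_add_le _ _) le_rfl)
  have hiB : Integrable (fun g => repAvg (E r (p, g)) (cOvl C j)) G := by
    refine Integrable.of_bound ?_ 1
      (Eventually.of_forall fun g => abs_repAvg_le _ (abs_cOvl_le C j))
    refine Measurable.aestronglyMeasurable (Finset.measurable_fun_sum _ fun x _ => ?_)
    simp only [gibW, hE]
    fun_prop
  show ∫ g, (lsum (E r (p, g)) + (h * N / 2 * (1 - repAvg (E r (p, g)) (cOvl C j)) -
      gainRem (h * N))) ∂G ≤ ∫ g, lsum (E r' (p, g)) ∂G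
  simp only [e2]
  refine le_trans ?_ (integral_cVec_bump C (hr0 _) hR j hh hFm hint).ge
  refine integral_mono (hiA.add ((((integrable_const (1 : ℝ)).sub hiB).const_mul (h * N / 2)).sub
    (integrable_const (gainRem (h * N))))) hint.integral_prod_left fun g => ?_
  have key := integral_lsum_cVec_bump_ge C hj hh (E r (p, g))
  rw [← add_sub_assoc]
  refine key.trans (le_of_eq ?_)
  refine integral_congr_ae (Eventually.of_forall fun g' => congrArg lsum ?_)
  funext x
  simp only [hE, hb]
  ring

end Vale.Agent.P157F.Up
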